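import Vale.Agent.P113.Flow

/-! # From the auxiliary definitions to the statement's definitions -/

open scoped ContDiff

namespace Vale.Agent.P113

theorem foldr_pd (L : List (Fin 4)) (g : (Fin 4 → ℝ) → ℝ) :
    L.foldr HaltNS.pd g = mixedD L g := by
  induction L with
  | nil => rfl
  | cons j L ih =>
    rw [List.foldr_cons, ih]
    rfl

theorem computableReal_iff {x : ℝ} (h : HaltNS.ComputableReal x) : ComputableReal x := h

theorem compiler {ν : ℝ} (hν : HaltNS.ComputableReal ν) :
    ∃ compile : HaltNS.Desc → Nat.Partrec.Code, Computable compile ∧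
      ∀ p : Desc × List ℕ, HaltNS.Computes (compile p)
        (fun i t x => force ν p.1 p.2 t x i) := by
  obtain ⟨c, hc, hc'⟩ := exists_force_compiler (computableReal_iff hν)
  refine ⟨c, hc, fun p i L q ε _ hε => ?_⟩
  obtain ⟨r, hr, hr'⟩ := hc' p i L q ε hε
  refine ⟨r, hr, ?_⟩
  have h1 : L.foldr HaltNS.pd (fun y : Fin 4 → ℝ => force ν p.1 p.2 (y 0) (Fin.tail y) i) =
      mixedD L (forceComp ν p.1 p.2 i) := foldr_pd L _
  rw [h1]
  exact hr'

theorem describe_eq (M : HaltNS.Machine) (w : List (Fin M.K)) :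
    HaltNS.describe M w = (mdesc M, w.map Fin.val) := rfl

theorem smooth_comp {F : Field} (h : SmoothField F) (i : Fin 3) :
    HaltNS.Smooth (fun t x => F t x i) :=
  ⟨fun t x k => congrFun (h.1 t x k) i, (contDiff_pi.1 h.2) i⟩

theorem isSolution_velocity (ν : ℝ) (D : Desc) (w : List ℕ) {T : ℝ} (hT : 0 < T) :
    HaltNS.IsSolution ν (fun i t x => force ν D w t x i) T (fun i t x => velocity D w t x i)
      (fun _ _ => 0) := by
  have h := isClassicalSolution_velocity ν D w hT
  refine ⟨fun t ht i x k => congrFun (h.periodic_u t ht x k) i, fun t ht => h.periodic_p t ht,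
    fun t ht x i => (differentiableWithinAt_pi.1 (h.diff_t t ht x)) i,
    fun t ht i => (contDiff_pi.1 (h.space_u t ht)) i, h.space_p,
    fun i => ⟨(continuousOn_pi.1 h.cont_u) i, ?_⟩,
    fun i j => ⟨h.cont_ux i j, fun k => h.cont_uxx i j k⟩, ⟨h.cont_p, h.cont_px⟩,
    fun t ht x i => h.momentum t ht x i, h.div_free, fun x i => congrFun (h.initial x) i,
    h.mean_zero⟩
  refine (continuous_pi_iff.1 (continuous_velocityT D w) i).continuousOn.congr fun q hq => ?_
  exact derivWithin_velocity_apply D w hT hq.1 q.2 i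

theorem toClassical {ν : ℝ} {f : HaltNS.VF} {T : ℝ} (hT : 0 < T) {u : HaltNS.VF}
    {p : HaltNS.ST} (h : HaltNS.IsSolution ν f T u p) :
    IsClassicalSolution ν (fun t x i => f i t x) T (fun t x i => u i t x) p where
  periodic_u := fun t ht x k => funext fun i => h.periodic_u t ht i x k
  periodic_p := fun t ht => h.periodic_p t ht
  cont_u := continuousOn_pi.2 fun i => (h.cont_u i).1
  diff_t := fun t ht x => differentiableWithinAt_pi.2 fun i => h.time_u t ht x i
  cont_ut := by
    refine (continuousOn_pi.2 fun i => (h.cont_u i).2).congr fun q hq => ?_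
    have h1 : HasDerivWithinAt (fun s : ℝ => fun i => u i s q.2)
        (fun i => HaltNS.dt T (u i) q.1 q.2) (Set.Icc 0 T) q.1 :=
      hasDerivWithinAt_pi.2 fun i => (h.time_u q.1 hq.1 q.2 i).hasDerivWithinAt
    exact h1.derivWithin (uniqueDiffOn_Icc hT q.1 hq.1)
  space_u := fun t ht => contDiff_pi.2 fun i => h.space_u t ht i
  cont_ux := fun i j => (h.cont_ux i j).1
  cont_uxx := fun i j k => (h.cont_ux i j).2 k
  cont_p := h.cont_p.1
  space_p := h.space_p
  cont_px := h.cont_p.2
  momentum := fun t ht x i => h.momentum t ht x i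
  div_free := h.div_free
  initial := fun x => funext fun i => h.initial x i
  mean_zero := h.mean_zero

theorem solution_unique {ν : ℝ} (hν : 0 < ν) {f : HaltNS.VF} {T : ℝ} (hT : 0 < T)
    {u v : HaltNS.VF} {p q : HaltNS.ST} (hu : HaltNS.IsSolution ν f T u p)
    (hv : HaltNS.IsSolution ν f T v q) :
    ∀ t ∈ Set.Icc 0 T, ∀ x, q t x = p t x ∧ ∀ i, v i t x = u i t x := by
  intro t ht x
  obtain ⟨h1, h2⟩ := classical_unique hν hT (toClassical hT hu) (toClassical hT hv) t ht x
  exact ⟨h2, fun i => congrFun h1 i⟩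

theorem isTrajectory_iff (U : Field) (a : Fin 3 → UnitAddCircle) (X : ℝ → Fin 3 → ℝ) :
    HaltNS.IsTrajectory (fun i t x => U t x i) a X ↔ IsTrajectory U a X := by
  unfold HaltNS.IsTrajectory IsTrajectory
  refine and_congr funext_iff ?_
  refine forall_congr' fun t => forall_congr' fun _ => ?_
  exact hasDerivWithinAt_pi.symm

theorem eventuallyPeriodic_force (ν : ℝ) :
    HaltNS.EventuallyPeriodic fun M w => fun i t x => force ν (mdesc M) (w.map Fin.val) t x i := by
  refine ⟨1 / 2, by norm_num, fun M => ⟨⟨1, one_pos, fun w i t x ht => ?_⟩,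
    fun w w' i t x ht => ?_⟩⟩
  · exact congrFun (force_periodic ν _ _ ht x) i
  · exact congrFun (force_indep ν _ _ _ ht x) i

end Vale.Agent.P113
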