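import Vale.Agent.P113.CR

/-! # The bump function and the computability of its derivatives -/

open scoped ContDiff
open Polynomial

namespace Vale.Agent.P113

/-! ### Derivatives of `exp (-1/x)` -/

/-- The polynomials with `(d/dx)^k exp (-1/x) = P_k (1/x) exp (-1/x)`. -/
noncomputable def gluePoly : ℕ → ℝ[X]
  | 0 => 1
  | k + 1 => X ^ 2 * (gluePoly k - derivative (gluePoly k))

theorem iteratedDeriv_glue (k : ℕ) :
    iteratedDeriv k expNegInvGlue = fun x => (gluePoly k).eval x⁻¹ * expNegInvGlue x := by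
  induction k with
  | zero => simp [gluePoly]
  | succ k ih =>
    rw [iteratedDeriv_succ, ih]
    funext x
    exact (expNegInvGlue.hasDerivAt_polynomial_eval_inv_mul (gluePoly k) x).deriv

theorem gluePoly_coeff_succ (k n : ℕ) :
    (gluePoly (k + 1)).coeff (n + 2) =
      (gluePoly k).coeff n - (n + 1) * (gluePoly k).coeff (n + 1) := by
  rw [gluePoly, mul_comm, coeff_mul_X_pow, coeff_sub, coeff_derivative]
  ring

theorem gluePoly_coeff_zero (k n : ℕ) (hn : n < 2) : (gluePoly (k + 1)).coeff n = 0 := by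
  rw [gluePoly, mul_comm, coeff_mul_X_pow']
  rw [if_neg (by omega)]

/-- The next row of coefficients. -/
def rowEntry (l : List RatCode) (i : ℕ) : RatCode :=
  bif i.blt 2 then (0, 0, 0)
  else ratAdd (l.getD (i - 2) (0, 0, 0))
    (ratNeg (ratMul (i - 1, 0, 0) (l.getD (i - 1) (0, 0, 0))))

def nextRow (l : List RatCode) : List RatCode := (List.range (l.length + 2)).map (rowEntry l)

def row (k : ℕ) : List RatCode := nextRow^[k] [(1, 0, 0)]

theorem primrec_rowEntry : Primrec₂ rowEntry := by
  have hi : Primrec fun p : List RatCode × ℕ => p.2 := Primrec.snd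
  have hl : Primrec fun p : List RatCode × ℕ => p.1 := Primrec.fst
  have hb : Primrec fun p : List RatCode × ℕ => decide (p.2 < 2) :=
    (PrimrecRel.comp Primrec.nat_lt hi (Primrec.const 2)).decide
  have hb' : Primrec fun p : List RatCode × ℕ => p.2.blt 2 := by
    refine hb.of_eq fun p => ?_
    rw [Bool.eq_iff_iff]
    simp [Nat.blt_eq]
  have h1 : Primrec fun p : List RatCode × ℕ => p.1.getD (p.2 - 2) (0, 0, 0) :=
    (Primrec.list_getD (0, 0, 0)).comp hl (Primrec.nat_sub.comp hi (Primrec.const 2))
  have hi1 : Primrec fun p : List RatCode × ℕ => p.2 - 1 :=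
    Primrec.nat_sub.comp hi (Primrec.const 1)
  have h2 : Primrec fun p : List RatCode × ℕ => p.1.getD (p.2 - 1) (0, 0, 0) :=
    (Primrec.list_getD (0, 0, 0)).comp hl hi1
  have h3 : Primrec fun p : List RatCode × ℕ => ((p.2 - 1, 0, 0) : RatCode) :=
    hi1.pair (Primrec.const (0, 0))
  have h4 : Primrec fun p : List RatCode × ℕ =>
      ratAdd (p.1.getD (p.2 - 2) (0, 0, 0))
        (ratNeg (ratMul (p.2 - 1, 0, 0) (p.1.getD (p.2 - 1) (0, 0, 0)))) :=
    primrec_ratAdd.comp h1 (primrec_ratNeg.comp (primrec_ratMul.comp h3 h2))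
  exact (Primrec.cond hb' (Primrec.const (0, 0, 0)) h4).to₂

theorem primrec_nextRow : Primrec nextRow :=
  Primrec.list_map (Primrec.list_range.comp
    (Primrec.nat_add.comp Primrec.list_length (Primrec.const 2))) primrec_rowEntry

theorem primrec_row : Primrec row := by
  refine Primrec.nat_iterate (f := fun k : ℕ => k) (g := fun _ : ℕ => [((1, 0, 0) : RatCode)])
    (h := fun _ : ℕ => nextRow) Primrec.id (Primrec.const _) ?_
  exact (primrec_nextRow.comp Primrec.snd).to₂

theorem ratVal_row (k : ℕ) : ∀ i, ratVal ((row k).getD i (0, 0, 0)) = (gluePoly k).coeff i := by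
  induction k with
  | zero =>
    intro i
    cases i with
    | zero => simp [row, gluePoly, ratVal]
    | succ i => simp [row, gluePoly, ratVal, coeff_one]
  | succ k ih =>
    intro i
    have hrow : row (k + 1) = nextRow (row k) := by
      unfold row
      rw [Function.iterate_succ_apply']
    rw [hrow, nextRow]
    by_cases hi : i < (row k).length + 2
    · have h1 : ((List.range ((row k).length + 2)).map (rowEntry (row k))).getD i (0, 0, 0) =
          rowEntry (row k) i := by
        simp [List.getD_eq_getElem?_getD, hi]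
      rw [h1, rowEntry]
      by_cases h2 : i < 2
      · have h3 : i.blt 2 = true := by rwa [Nat.blt_eq]
        rw [h3, cond_true, gluePoly_coeff_zero k i h2]
        simp [ratVal]
      · have h3 : i.blt 2 = false := by
          rw [Bool.eq_false_iff, ne_eq, Nat.blt_eq]
          exact h2
        obtain ⟨n, rfl⟩ : ∃ n, i = n + 2 := ⟨i - 2, by omega⟩
        rw [h3, cond_false, ratVal_add, ratVal_neg, ratVal_mul, gluePoly_coeff_succ]
        have h4 : n + 2 - 2 = n := by omega
        have h5 : n + 2 - 1 = n + 1 := by omega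
        rw [h4, h5, ih, ih, ratVal_nat]
        push_cast
        ring
    · have h1 : ((List.range ((row k).length + 2)).map (rowEntry (row k))).getD i (0, 0, 0) =
          (0, 0, 0) := by
        simp [List.getD_eq_getElem?_getD, hi]
      rw [h1]
      obtain ⟨n, rfl⟩ : ∃ n, i = n + 2 := ⟨i - 2, by omega⟩
      rw [gluePoly_coeff_succ, ← ih, ← ih]
      have h4 : (row k).getD n (0, 0, 0) = (0, 0, 0) := by
        rw [List.getD_eq_getElem?_getD, List.getElem?_eq_none (by omega)]
        rfl
      have h5 : (row k).getD (n + 1) (0, 0, 0) = (0, 0, 0) := by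
        rw [List.getD_eq_getElem?_getD, List.getElem?_eq_none (by omega)]
        rfl
      rw [h4, h5]
      simp [ratVal]

theorem gluePoly_eval (k : ℕ) (y : ℝ) :
    (gluePoly k).eval y =
      ∑ i ∈ Finset.range (row k).length, ratVal ((row k).getD i (0, 0, 0)) * y ^ i := by
  have h : (gluePoly k).natDegree < (row k).length + 1 := by
    rw [Nat.lt_succ_iff]
    refine natDegree_le_iff_coeff_eq_zero.2 fun N hN => ?_
    rw [← ratVal_row]
    rw [List.getD_eq_getElem?_getD, List.getElem?_eq_none (by omega)]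
    simp [ratVal]
  rw [eval_eq_sum_range' h, Finset.sum_range_succ]
  have h2 : (gluePoly k).coeff (row k).length = 0 := by
    rw [← ratVal_row, List.getD_eq_getElem?_getD, List.getElem?_eq_none (by omega)]
    simp [ratVal]
  rw [h2, zero_mul, add_zero]
  exact Finset.sum_congr rfl fun i _ => by rw [ratVal_row]

/-- The derivatives of `exp (-1/x)` are uniformly computable at rational points. -/
theorem CR_glue : CR (fun p : ℕ × RatCode => iteratedDeriv p.1 expNegInvGlue (ratVal p.2)) := by
  have hk : Computable fun p : ℕ × RatCode => p.1 := Computable.fst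
  have ha : Computable fun p : ℕ × RatCode => p.2.1 := Computable.fst.comp Computable.snd
  have hb : Computable fun p : ℕ × RatCode => p.2.2.1 :=
    Computable.fst.comp (Computable.snd.comp Computable.snd)
  have hd : Computable fun p : ℕ × RatCode => p.2.2.2 :=
    Computable.snd.comp (Computable.snd.comp Computable.snd)
  have hsub := Primrec.nat_sub.to_comp
  -- the summand
  let y : RatCode → RatCode := fun r => (r.2.2 + 1, 0, r.1 - r.2.1 - 1)
  let c : (ℕ × RatCode) × ℕ → RatCode := fun q =>
    ratMul ((row q.1.1).getD q.2 (0, 0, 0))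
      ((q.1.2.2.2 + 1) ^ q.2, 0, (q.1.2.1 - q.1.2.2.1) ^ q.2 - 1)
  have hc : Computable c := by
    have h1 : Computable fun q : (ℕ × RatCode) × ℕ => (row q.1.1).getD q.2 (0, 0, 0) :=
      (Primrec.list_getD (0, 0, 0)).to_comp.comp
        (primrec_row.to_comp.comp (hk.comp Computable.fst)) Computable.snd
    have h2 : Computable fun q : (ℕ × RatCode) × ℕ => (q.1.2.2.2 + 1) ^ q.2 :=
      primrec_pow.to_comp.comp (Computable.succ.comp (hd.comp Computable.fst)) Computable.snd
    have h3 : Computable fun q : (ℕ × RatCode) × ℕ => (q.1.2.1 - q.1.2.2.1) ^ q.2 - 1 :=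
      hsub.comp (primrec_pow.to_comp.comp
        (hsub.comp (ha.comp Computable.fst) (hb.comp Computable.fst)) Computable.snd)
        (Computable.const 1)
    exact primrec_ratMul.to_comp.comp h1 (h2.pair ((Computable.const 0).pair h3))
  have hsum : CR (fun p : ℕ × RatCode =>
      ∑ i ∈ Finset.range (row p.1).length, ratVal (c (p, i))) :=
    CR.sum (CR.rat hc) (Primrec.list_length.to_comp.comp (primrec_row.to_comp.comp hk))
  have hexp : CR (fun p : ℕ × RatCode =>
      Real.exp (-(((p.2.2.2 + 1 : ℕ) : ℝ) / (((p.2.1 - p.2.2.1 - 1 : ℕ) : ℝ) + 1)))) :=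
    CR.exp_neg (a := fun p : ℕ × RatCode => p.2.2.2 + 1)
      (d := fun p : ℕ × RatCode => p.2.1 - p.2.2.1 - 1)
      (Computable.succ.comp hd) (hsub.comp (hsub.comp ha hb) (Computable.const 1))
  have hbool : Computable fun p : ℕ × RatCode => decide (p.2.1 ≤ p.2.2.1) := by
    have h : Primrec fun p : ℕ × RatCode => decide (p.2.1 ≤ p.2.2.1) :=
      (PrimrecRel.comp Primrec.nat_le (Primrec.fst.comp Primrec.snd)
        (primrec_mid.comp Primrec.snd)).decide
    exact h.to_comp
  have hzero : CR (fun _ : ℕ × RatCode => (0 : ℝ)) :=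
    (CR.nat (r := fun _ : ℕ × RatCode => 0) (Computable.const 0)).congr fun _ => by simp
  refine (CR.bcond hzero (hsum.mul hexp) hbool).congr fun p => ?_
  obtain ⟨k, a, b, d⟩ := p
  simp only [iteratedDeriv_glue, c]
  by_cases hab : a ≤ b
  · rw [decide_eq_true hab, cond_true]
    have h1 : ratVal (a, b, d) ≤ 0 := by
      simp only [ratVal]
      apply div_nonpos_of_nonpos_of_nonneg
      · have : (a : ℝ) ≤ b := by exact_mod_cast hab
        linarith
      · positivity
    rw [expNegInvGlue.zero_of_nonpos h1, mul_zero]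
  · rw [decide_eq_false hab, cond_false]
    push Not at hab
    have habr : (b : ℝ) < a := by exact_mod_cast hab
    have hd0 : (0 : ℝ) < (d : ℝ) + 1 := by positivity
    have h1 : 0 < ratVal (a, b, d) := by
      simp only [ratVal]
      apply div_pos _ hd0
      linarith
    have h2 : (ratVal (a, b, d))⁻¹ = ((d : ℝ) + 1) / ((a : ℝ) - b) := by
      simp only [ratVal]
      rw [inv_div]
    have h3 : (((a - b - 1 : ℕ) : ℝ) + 1) = (a : ℝ) - b := by
      rw [Nat.cast_sub (by omega), Nat.cast_sub hab.le]
      push_cast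
      ring
    have h4 : expNegInvGlue (ratVal (a, b, d)) =
        Real.exp (-(((d + 1 : ℕ) : ℝ) / (((a - b - 1 : ℕ) : ℝ) + 1))) := by
      rw [expNegInvGlue, if_neg (not_le.2 h1), h2, h3]
      push_cast
      rfl
    rw [h4, gluePoly_eval]
    congr 1
    refine Finset.sum_congr rfl fun i _ => ?_
    rw [ratVal_mul]
    congr 1
    simp only [ratVal] at h2 ⊢
    have h5 : 1 ≤ (a - b) ^ i := Nat.one_le_pow _ _ (by omega)
    rw [Nat.cast_sub h5]
    push_cast [Nat.cast_sub hab.le]
    rw [sub_add_cancel, sub_zero, h2, div_pow]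

/-! ### The bump function -/

/-- The bump function, positive exactly on `(0, 1)`. -/
noncomputable def bump (x : ℝ) : ℝ := expNegInvGlue x * expNegInvGlue (1 - x)

theorem bump_contDiff : ContDiff ℝ ∞ bump :=
  (expNegInvGlue.contDiff (n := ⊤)).mul
    ((expNegInvGlue.contDiff (n := ⊤)).comp (contDiff_const.sub contDiff_id))

theorem bump_nonneg (x : ℝ) : 0 ≤ bump x :=
  mul_nonneg (expNegInvGlue.nonneg _) (expNegInvGlue.nonneg _)

theorem bump_pos {x : ℝ} (h0 : 0 < x) (h1 : x < 1) : 0 < bump x :=
  mul_pos (expNegInvGlue.pos_of_pos h0) (expNegInvGlue.pos_of_pos (by linarith))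

theorem bump_of_nonpos {x : ℝ} (h : x ≤ 0) : bump x = 0 := by
  rw [bump, expNegInvGlue.zero_of_nonpos h, zero_mul]

theorem bump_of_one_le {x : ℝ} (h : 1 ≤ x) : bump x = 0 := by
  rw [bump, expNegInvGlue.zero_of_nonpos (x := 1 - x) (by linarith), mul_zero]

/-- Smooth functions on the line vanishing outside of `(0, 1)`. -/
structure Flat (φ : ℝ → ℝ) : Prop where
  smooth : ContDiff ℝ ∞ φ
  left : ∀ x, x ≤ 0 → φ x = 0
  right : ∀ x, 1 ≤ x → φ x = 0

theorem bump_flat : Flat bump := ⟨bump_contDiff, fun _ => bump_of_nonpos, fun _ => bump_of_one_le⟩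

theorem Flat.deriv {φ : ℝ → ℝ} (h : Flat φ) : Flat (deriv φ) := by
  have hsm : ContDiff ℝ ∞ (_root_.deriv φ) := by
    have := (contDiff_infty_iff_deriv.1 h.smooth).2
    exact this
  have hcont : Continuous (_root_.deriv φ) := hsm.continuous
  refine ⟨hsm, fun x hx => ?_, fun x hx => ?_⟩
  · -- on the open half line the derivative vanishes, then use continuity
    have h1 : Set.Iio (0 : ℝ) ⊆ {y | _root_.deriv φ y = 0} := by
      intro y hy
      have h2 : φ =ᶠ[nhds y] fun _ => (0 : ℝ) := by
        filter_upwards [Iio_mem_nhds hy] with z hz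
        exact h.left z hz.le
      have := h2.deriv_eq
      simpa using this
    have h3 : IsClosed {y | _root_.deriv φ y = 0} := isClosed_eq hcont continuous_const
    have h4 := closure_minimal h1 h3
    rw [closure_Iio] at h4
    exact h4 hx
  · have h1 : Set.Ioi (1 : ℝ) ⊆ {y | _root_.deriv φ y = 0} := by
      intro y hy
      have h2 : φ =ᶠ[nhds y] fun _ => (0 : ℝ) := by
        filter_upwards [Ioi_mem_nhds hy] with z hz
        exact h.right z hz.le
      have := h2.deriv_eq
      simpa using this
    have h3 : IsClosed {y | _root_.deriv φ y = 0} := isClosed_eq hcont continuous_const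
    have h4 := closure_minimal h1 h3
    rw [closure_Ioi] at h4
    exact h4 hx

theorem Flat.iteratedDeriv {φ : ℝ → ℝ} (h : Flat φ) (k : ℕ) : Flat (iteratedDeriv k φ) := by
  induction k with
  | zero => simpa using h
  | succ k ih =>
    rw [iteratedDeriv_succ]
    exact ih.deriv

theorem Flat.bounded {φ : ℝ → ℝ} (h : Flat φ) : ∃ B : ℝ, 0 ≤ B ∧ ∀ x, |φ x| ≤ B := by
  obtain ⟨B, hB⟩ := (isCompact_Icc (a := (0 : ℝ)) (b := 1)).exists_bound_of_continuousOn
    h.smooth.continuous.continuousOn
  have hB0 : 0 ≤ B := (norm_nonneg _).trans (hB 0 ⟨le_rfl, zero_le_one⟩)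
  refine ⟨B, hB0, fun x => ?_⟩
  by_cases hx : x ∈ Set.Icc (0 : ℝ) 1
  · exact hB x hx
  · have : φ x = 0 := by
      by_cases h0 : x ≤ 0
      · exact h.left x h0
      · push Not at h0
        apply h.right
        by_contra h1
        push Not at h1
        exact hx ⟨h0.le, h1.le⟩
    rw [this, abs_zero]
    exact hB0

theorem iteratedDeriv_bump (k : ℕ) (x : ℝ) :
    iteratedDeriv k bump x = ∑ j ∈ Finset.range (k + 1),
      ((k.factorial / (j.factorial * (k - j).factorial) : ℕ) : ℝ) *
        iteratedDeriv j expNegInvGlue x *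
          ((-1) ^ (k - j) * iteratedDeriv (k - j) expNegInvGlue (1 - x)) := by
  have hg : ContDiff ℝ ∞ expNegInvGlue := expNegInvGlue.contDiff (n := ⊤)
  have hg' : ContDiff ℝ ∞ (fun x : ℝ => expNegInvGlue (1 - x)) :=
    hg.comp (contDiff_const.sub contDiff_id)
  have h := iteratedDeriv_mul (n := k) (x := x) (f := expNegInvGlue)
    (g := fun x : ℝ => expNegInvGlue (1 - x))
    ((hg.of_le (by exact_mod_cast le_top)).contDiffAt)
    ((hg'.of_le (by exact_mod_cast le_top)).contDiffAt)
  have h0 : (expNegInvGlue * fun x : ℝ => expNegInvGlue (1 - x)) = bump := by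
    funext x
    rfl
  rw [h0] at h
  rw [h]
  refine Finset.sum_congr rfl fun j hj => ?_
  have hj' : j ≤ k := Nat.lt_succ_iff.1 (Finset.mem_range.1 hj)
  rw [Nat.choose_eq_factorial_div_factorial hj', iteratedDeriv_comp_const_sub]
  simp only [smul_eq_mul]

/-- The derivatives of the bump function are uniformly computable at rational points. -/
theorem CR_bump : CR (fun p : ℕ × RatCode => iteratedDeriv p.1 bump (ratVal p.2)) := by
  -- the summand
  have hk : Primrec fun q : (ℕ × RatCode) × ℕ => q.1.1 := Primrec.fst.comp Primrec.fst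
  have hr : Primrec fun q : (ℕ × RatCode) × ℕ => q.1.2 := Primrec.snd.comp Primrec.fst
  have hj : Primrec fun q : (ℕ × RatCode) × ℕ => q.2 := Primrec.snd
  have hkj : Primrec fun q : (ℕ × RatCode) × ℕ => q.1.1 - q.2 := Primrec.nat_sub.comp hk hj
  have h1 : CR (fun q : (ℕ × RatCode) × ℕ =>
      ((q.1.1.factorial / (q.2.factorial * (q.1.1 - q.2).factorial) : ℕ) : ℝ)) :=
    CR.nat (primrec_choose.comp hk hj).to_comp
  have h2 : CR (fun q : (ℕ × RatCode) × ℕ => iteratedDeriv q.2 expNegInvGlue (ratVal q.1.2)) :=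
    CR_glue.comp (hj.pair hr).to_comp
  have hone : Primrec fun q : (ℕ × RatCode) × ℕ => ratAdd (1, 0, 0) (ratNeg q.1.2) :=
    primrec_ratAdd.comp (Primrec.const _) (primrec_ratNeg.comp hr)
  have h3 : CR (fun q : (ℕ × RatCode) × ℕ =>
      iteratedDeriv (q.1.1 - q.2) expNegInvGlue (1 - ratVal q.1.2)) := by
    refine (CR_glue.comp (hkj.pair hone).to_comp).congr fun q => ?_
    simp only
    rw [ratVal_add, ratVal_neg]
    simp only [ratVal]
    norm_num
    rw [← sub_eq_add_neg]
  have h4 : CR (fun q : (ℕ × RatCode) × ℕ => ((-1 : ℝ)) ^ (q.1.1 - q.2)) := by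
    have hb : Computable fun q : (ℕ × RatCode) × ℕ => (q.1.1 - q.2).bodd :=
      Computable.nat_bodd.comp hkj.to_comp
    have hp : CR (fun _ : (ℕ × RatCode) × ℕ => (-1 : ℝ)) :=
      (CR.rat (r := fun _ : (ℕ × RatCode) × ℕ => (0, 1, 0)) (Computable.const _)).congr
        fun _ => by simp [ratVal]
    have hq : CR (fun _ : (ℕ × RatCode) × ℕ => (1 : ℝ)) :=
      (CR.rat (r := fun _ : (ℕ × RatCode) × ℕ => (1, 0, 0)) (Computable.const _)).congr
        fun _ => by simp [ratVal]
    refine (CR.bcond hp hq hb).congr fun q => ?_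
    cases h : (q.1.1 - q.2).bodd
    · have : Even (q.1.1 - q.2) := by
        rw [Nat.even_iff, Nat.mod_two_of_bodd, h]
        rfl
      rw [cond_false, this.neg_one_pow]
    · have : Odd (q.1.1 - q.2) := by
        rw [Nat.odd_iff, Nat.mod_two_of_bodd, h]
        rfl
      rw [cond_true, this.neg_one_pow]
  have hsum := CR.sum (N := fun p : ℕ × RatCode => p.1 + 1) ((h1.mul h2).mul (h4.mul h3))
    (Computable.succ.comp Computable.fst)
  exact hsum.congr fun p => (iteratedDeriv_bump p.1 (ratVal p.2)).symm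

end Vale.Agent.P113
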