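import Vale.Agent.P113.Defs

/-! # Uniformly computable families of reals -/

namespace Vale.Agent.P113

open Encodable

/-! ### Arithmetic of codes of rationals -/

def ratAdd (r s : RatCode) : RatCode :=
  (r.1 * (s.2.2 + 1) + s.1 * (r.2.2 + 1), r.2.1 * (s.2.2 + 1) + s.2.1 * (r.2.2 + 1),
    r.2.2 * s.2.2 + r.2.2 + s.2.2)

def ratMul (r s : RatCode) : RatCode :=
  (r.1 * s.1 + r.2.1 * s.2.1, r.1 * s.2.1 + r.2.1 * s.1, r.2.2 * s.2.2 + r.2.2 + s.2.2)

def ratNeg (r : RatCode) : RatCode := (r.2.1, r.1, r.2.2)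

theorem ratVal_add (r s : RatCode) : ratVal (ratAdd r s) = ratVal r + ratVal s := by
  obtain ⟨a, b, d⟩ := r
  obtain ⟨a', b', d'⟩ := s
  simp only [ratVal, ratAdd]
  push_cast
  have h1 : (d : ℝ) + 1 ≠ 0 := by positivity
  have h2 : (d' : ℝ) + 1 ≠ 0 := by positivity
  have h3 : (d : ℝ) * d' + d + d' + 1 ≠ 0 := by positivity
  field_simp
  ring

theorem ratVal_mul (r s : RatCode) : ratVal (ratMul r s) = ratVal r * ratVal s := by
  obtain ⟨a, b, d⟩ := r
  obtain ⟨a', b', d'⟩ := s
  simp only [ratVal, ratMul]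
  push_cast
  have h1 : (d : ℝ) + 1 ≠ 0 := by positivity
  have h2 : (d' : ℝ) + 1 ≠ 0 := by positivity
  have h3 : (d : ℝ) * d' + d + d' + 1 ≠ 0 := by positivity
  field_simp
  ring

theorem ratVal_neg (r : RatCode) : ratVal (ratNeg r) = - ratVal r := by
  obtain ⟨a, b, d⟩ := r
  simp only [ratVal, ratNeg]
  ring

theorem ratVal_abs_le (r : RatCode) : |ratVal r| ≤ (r.1 : ℝ) + r.2.1 := by
  obtain ⟨a, b, d⟩ := r
  simp only [ratVal]
  have h1 : (1 : ℝ) ≤ (d : ℝ) + 1 := by
    have : (0 : ℝ) ≤ d := Nat.cast_nonneg d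
    linarith
  have ha : (0 : ℝ) ≤ a := Nat.cast_nonneg a
  have hb : (0 : ℝ) ≤ b := Nat.cast_nonneg b
  rw [abs_div, abs_of_pos (by linarith : (0 : ℝ) < (d : ℝ) + 1)]
  rw [div_le_iff₀ (by linarith)]
  have h2 : |(a : ℝ) - b| ≤ a + b := by
    rw [abs_le]; constructor <;> linarith
  nlinarith

theorem ratVal_nat (n : ℕ) : ratVal (n, 0, 0) = n := by simp [ratVal]

theorem primrec_fst' : Primrec (fun r : RatCode => r.1) := Primrec.fst
theorem primrec_mid : Primrec (fun r : RatCode => r.2.1) := Primrec.fst.comp Primrec.snd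
theorem primrec_den : Primrec (fun r : RatCode => r.2.2) := Primrec.snd.comp Primrec.snd

theorem primrec_ratAdd : Primrec₂ ratAdd := by
  have r1 : Primrec fun p : RatCode × RatCode => p.1.1 := Primrec.fst.comp Primrec.fst
  have r2 : Primrec fun p : RatCode × RatCode => p.1.2.1 := primrec_mid.comp Primrec.fst
  have r3 : Primrec fun p : RatCode × RatCode => p.1.2.2 := primrec_den.comp Primrec.fst
  have s1 : Primrec fun p : RatCode × RatCode => p.2.1 := Primrec.fst.comp Primrec.snd
  have s2 : Primrec fun p : RatCode × RatCode => p.2.2.1 := primrec_mid.comp Primrec.snd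
  have s3 : Primrec fun p : RatCode × RatCode => p.2.2.2 := primrec_den.comp Primrec.snd
  have r3' : Primrec fun p : RatCode × RatCode => p.1.2.2 + 1 :=
    Primrec.nat_add.comp r3 (Primrec.const 1)
  have s3' : Primrec fun p : RatCode × RatCode => p.2.2.2 + 1 :=
    Primrec.nat_add.comp s3 (Primrec.const 1)
  have h1 : Primrec fun p : RatCode × RatCode => p.1.1 * (p.2.2.2 + 1) + p.2.1 * (p.1.2.2 + 1) :=
    Primrec.nat_add.comp (Primrec.nat_mul.comp r1 s3') (Primrec.nat_mul.comp s1 r3')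
  have h2 : Primrec fun p : RatCode × RatCode => p.1.2.1 * (p.2.2.2 + 1) + p.2.2.1 * (p.1.2.2 + 1) :=
    Primrec.nat_add.comp (Primrec.nat_mul.comp r2 s3') (Primrec.nat_mul.comp s2 r3')
  have h3 : Primrec fun p : RatCode × RatCode => p.1.2.2 * p.2.2.2 + p.1.2.2 + p.2.2.2 :=
    Primrec.nat_add.comp (Primrec.nat_add.comp (Primrec.nat_mul.comp r3 s3) r3) s3
  exact (h1.pair (h2.pair h3)).to₂

theorem primrec_ratMul : Primrec₂ ratMul := by
  have r1 : Primrec fun p : RatCode × RatCode => p.1.1 := Primrec.fst.comp Primrec.fst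
  have r2 : Primrec fun p : RatCode × RatCode => p.1.2.1 := primrec_mid.comp Primrec.fst
  have r3 : Primrec fun p : RatCode × RatCode => p.1.2.2 := primrec_den.comp Primrec.fst
  have s1 : Primrec fun p : RatCode × RatCode => p.2.1 := Primrec.fst.comp Primrec.snd
  have s2 : Primrec fun p : RatCode × RatCode => p.2.2.1 := primrec_mid.comp Primrec.snd
  have s3 : Primrec fun p : RatCode × RatCode => p.2.2.2 := primrec_den.comp Primrec.snd
  have h1 : Primrec fun p : RatCode × RatCode => p.1.1 * p.2.1 + p.1.2.1 * p.2.2.1 :=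
    Primrec.nat_add.comp (Primrec.nat_mul.comp r1 s1) (Primrec.nat_mul.comp r2 s2)
  have h2 : Primrec fun p : RatCode × RatCode => p.1.1 * p.2.2.1 + p.1.2.1 * p.2.1 :=
    Primrec.nat_add.comp (Primrec.nat_mul.comp r1 s2) (Primrec.nat_mul.comp r2 s1)
  have h3 : Primrec fun p : RatCode × RatCode => p.1.2.2 * p.2.2.2 + p.1.2.2 + p.2.2.2 :=
    Primrec.nat_add.comp (Primrec.nat_add.comp (Primrec.nat_mul.comp r3 s3) r3) s3
  exact (h1.pair (h2.pair h3)).to₂

theorem primrec_ratNeg : Primrec ratNeg := by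
  have h : Primrec fun r : RatCode => ((r.2.1, r.1, r.2.2) : RatCode) :=
    primrec_mid.pair (primrec_fst'.pair primrec_den)
  exact h

theorem primrec_pow : Primrec₂ (fun a b : ℕ => a ^ b) :=
  Primrec₂.unpaired'.1 Nat.Primrec.pow

theorem primrec_factorial : Primrec Nat.factorial := by
  have h : Primrec fun n : ℕ => (Nat.rec 1 (fun y IH => (y + 1) * IH) n : ℕ) := by
    refine Primrec.nat_rec' (f := fun n : ℕ => n) (g := fun _ : ℕ => (1 : ℕ))
      (h := fun (_ : ℕ) (p : ℕ × ℕ) => (p.1 + 1) * p.2) Primrec.id (Primrec.const 1) ?_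
    have : Primrec fun p : ℕ × (ℕ × ℕ) => (p.2.1 + 1) * p.2.2 :=
      Primrec.nat_mul.comp (Primrec.succ.comp (Primrec.fst.comp Primrec.snd))
        (Primrec.snd.comp Primrec.snd)
    exact this.to₂
  refine h.of_eq fun n => ?_
  induction n with
  | zero => rfl
  | succ n ih =>
    rw [Nat.factorial_succ, ← ih]

theorem primrec_choose : Primrec₂ (fun n k : ℕ => n.factorial / (k.factorial * (n - k).factorial)) := by
  have h1 : Primrec fun p : ℕ × ℕ => p.1.factorial := primrec_factorial.comp Primrec.fst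
  have h2 : Primrec fun p : ℕ × ℕ => p.2.factorial := primrec_factorial.comp Primrec.snd
  have h3 : Primrec fun p : ℕ × ℕ => (p.1 - p.2).factorial :=
    primrec_factorial.comp (Primrec.nat_sub.comp Primrec.fst Primrec.snd)
  have h4 : Primrec fun p : ℕ × ℕ => p.1.factorial / (p.2.factorial * (p.1 - p.2).factorial) :=
    Primrec.nat_div.comp h1 (Primrec.nat_mul.comp h2 h3)
  exact h4.to₂

/-! ### Uniformly computable families of reals -/

/-- A uniformly computable family of real numbers. -/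
def CR {ι : Type*} [Primcodable ι] (F : ι → ℝ) : Prop :=
  ∃ g : ι × ℕ → RatCode, Computable g ∧ ∀ i n, |F i - ratVal (g (i, n))| ≤ 1 / ((n : ℝ) + 1)

section

variable {ι κ : Type*} [Primcodable ι] [Primcodable κ]

theorem CR.congr {F G : ι → ℝ} (hF : CR F) (h : ∀ i, F i = G i) : CR G := by
  have : F = G := funext h
  rwa [← this]

theorem CR.comp {F : ι → ℝ} (hF : CR F) {σ : κ → ι} (hσ : Computable σ) :
    CR (fun k => F (σ k)) := by
  obtain ⟨g, hg, hg'⟩ := hF
  exact ⟨fun p => g (σ p.1, p.2), hg.comp ((hσ.comp Computable.fst).pair Computable.snd),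
    fun i n => hg' (σ i) n⟩

theorem CR.rat {r : ι → RatCode} (hr : Computable r) : CR (fun i => ratVal (r i)) := by
  refine ⟨fun p => r p.1, hr.comp Computable.fst, fun i n => ?_⟩
  simp only [sub_self, abs_zero]
  positivity

theorem CR.nat {r : ι → ℕ} (hr : Computable r) : CR (fun i => (r i : ℝ)) := by
  have h : Computable fun i => ((r i, 0, 0) : RatCode) :=
    hr.pair ((Computable.const 0).pair (Computable.const 0))
  exact (CR.rat h).congr fun i => ratVal_nat _

theorem CR.neg {F : ι → ℝ} (hF : CR F) : CR (fun i => - F i) := by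
  obtain ⟨g, hg, hg'⟩ := hF
  refine ⟨fun p => ratNeg (g p), primrec_ratNeg.to_comp.comp hg, fun i n => ?_⟩
  rw [ratVal_neg]
  have h1 : - F i - - ratVal (g (i, n)) = -(F i - ratVal (g (i, n))) := by ring
  rw [h1, abs_neg]
  exact hg' i n

theorem CR.add {F G : ι → ℝ} (hF : CR F) (hG : CR G) : CR (fun i => F i + G i) := by
  obtain ⟨f, hf, hf'⟩ := hF
  obtain ⟨g, hg, hg'⟩ := hG
  have hidx : Computable fun p : ι × ℕ => (p.1, 2 * p.2 + 1) :=
    Computable.fst.pair (Primrec.nat_double_succ.to_comp.comp Computable.snd)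
  refine ⟨fun p => ratAdd (f (p.1, 2 * p.2 + 1)) (g (p.1, 2 * p.2 + 1)),
    primrec_ratAdd.to_comp.comp (hf.comp hidx) (hg.comp hidx), fun i n => ?_⟩
  rw [ratVal_add]
  have h1 := hf' i (2 * n + 1)
  have h2 := hg' i (2 * n + 1)
  have h3 : (1 : ℝ) / (((2 * n + 1 : ℕ) : ℝ) + 1) = 1 / ((n : ℝ) + 1) / 2 := by
    push_cast
    have : (n : ℝ) + 1 ≠ 0 := by positivity
    field_simp
    ring
  rw [h3] at h1 h2
  have h4 : F i + G i - (ratVal (f (i, 2 * n + 1)) + ratVal (g (i, 2 * n + 1))) =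
    (F i - ratVal (f (i, 2 * n + 1))) + (G i - ratVal (g (i, 2 * n + 1))) := by ring
  rw [h4]
  refine (abs_add_le _ _).trans ?_
  linarith

theorem CR.sub {F G : ι → ℝ} (hF : CR F) (hG : CR G) : CR (fun i => F i - G i) :=
  (hF.add hG.neg).congr fun i => by ring

theorem CR.mul {F G : ι → ℝ} (hF : CR F) (hG : CR G) : CR (fun i => F i * G i) := by
  obtain ⟨f, hf, hf'⟩ := hF
  obtain ⟨g, hg, hg'⟩ := hG
  -- bounds
  let B : ι → ℕ := fun i => (f (i, 0)).1 + (f (i, 0)).2.1 + (g (i, 0)).1 + (g (i, 0)).2.1 + 4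
  have hB : Computable B := by
    have h0 : Computable fun i : ι => (i, (0 : ℕ)) := Computable.id.pair (Computable.const 0)
    have a1 : Computable fun i => (f (i, 0)).1 := Computable.fst.comp (hf.comp h0)
    have a2 : Computable fun i => (f (i, 0)).2.1 := primrec_mid.to_comp.comp (hf.comp h0)
    have b1 : Computable fun i => (g (i, 0)).1 := Computable.fst.comp (hg.comp h0)
    have b2 : Computable fun i => (g (i, 0)).2.1 := primrec_mid.to_comp.comp (hg.comp h0)
    have add := Primrec.nat_add.to_comp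
    exact add.comp (add.comp (add.comp (add.comp a1 a2) b1) b2) (Computable.const 4)
  have hidx : Computable fun p : ι × ℕ => (p.1, B p.1 * (p.2 + 1)) :=
    Computable.fst.pair (Primrec.nat_mul.to_comp.comp (hB.comp Computable.fst)
      (Computable.succ.comp Computable.snd))
  refine ⟨fun p => ratMul (f (p.1, B p.1 * (p.2 + 1))) (g (p.1, B p.1 * (p.2 + 1))),
    primrec_ratMul.to_comp.comp (hf.comp hidx) (hg.comp hidx), fun i n => ?_⟩
  rw [ratVal_mul]
  set m := B i * (n + 1) with hm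
  have h1 := hf' i m
  have h2 := hg' i m
  have hf0 := hf' i 0
  have hg0 := hg' i 0
  set x := ratVal (f (i, m))
  set y := ratVal (g (i, m))
  have bf : |F i| ≤ ((f (i, 0)).1 : ℝ) + (f (i, 0)).2.1 + 1 := by
    have h3 := ratVal_abs_le (f (i, 0))
    have h4 : |F i| ≤ |F i - ratVal (f (i, 0))| + |ratVal (f (i, 0))| := by
      have := abs_add_le (F i - ratVal (f (i, 0))) (ratVal (f (i, 0)))
      simpa using this
    simp only [Nat.cast_zero, zero_add, div_one] at hf0
    linarith
  have bg : |G i| ≤ ((g (i, 0)).1 : ℝ) + (g (i, 0)).2.1 + 1 := by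
    have h3 := ratVal_abs_le (g (i, 0))
    have h4 : |G i| ≤ |G i - ratVal (g (i, 0))| + |ratVal (g (i, 0))| := by
      have := abs_add_le (G i - ratVal (g (i, 0))) (ratVal (g (i, 0)))
      simpa using this
    simp only [Nat.cast_zero, zero_add, div_one] at hg0
    linarith
  have hm1 : (1 : ℝ) / ((m : ℝ) + 1) ≤ 1 := by
    rw [div_le_one (by positivity)]
    have : (0 : ℝ) ≤ m := Nat.cast_nonneg m
    linarith
  have by' : |y| ≤ |G i| + 1 := by
    have h4 : |y| ≤ |y - G i| + |G i| := by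
      have := abs_add_le (y - G i) (G i)
      simpa using this
    rw [abs_sub_comm] at h4
    linarith
  have h5 : F i * G i - x * y = F i * (G i - y) + y * (F i - x) := by ring
  rw [h5]
  have hBr : ((B i : ℕ) : ℝ) = (((f (i, 0)).1 : ℝ) + (f (i, 0)).2.1 + (g (i, 0)).1 +
      (g (i, 0)).2.1 + 4) := by
    simp only [B]
    push_cast
    ring
  have h6 : |F i * (G i - y) + y * (F i - x)| ≤ (B i : ℝ) * (1 / ((m : ℝ) + 1)) := by
    refine (abs_add_le _ _).trans ?_
    rw [abs_mul, abs_mul]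
    have h7 : |F i| * |G i - y| ≤ (((f (i, 0)).1 : ℝ) + (f (i, 0)).2.1 + 1) * (1 / ((m : ℝ) + 1)) :=
      mul_le_mul bf h2 (abs_nonneg _) (by positivity)
    have h8 : |y| * |F i - x| ≤ (((g (i, 0)).1 : ℝ) + (g (i, 0)).2.1 + 2) * (1 / ((m : ℝ) + 1)) :=
      mul_le_mul (by linarith) h1 (abs_nonneg _) (by positivity)
    have h9 : (0 : ℝ) ≤ 1 / ((m : ℝ) + 1) := by positivity
    rw [hBr]
    nlinarith
  refine h6.trans ?_
  rw [mul_one_div, div_le_div_iff₀ (by positivity) (by positivity), hm]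
  push_cast
  nlinarith [Nat.cast_nonneg (α := ℝ) (B i)]

theorem CR.bcond {F G : ι → ℝ} (hF : CR F) (hG : CR G) {b : ι → Bool} (hb : Computable b) :
    CR (fun i => bif b i then F i else G i) := by
  obtain ⟨f, hf, hf'⟩ := hF
  obtain ⟨g, hg, hg'⟩ := hG
  refine ⟨fun p => bif b p.1 then f p else g p, Computable.cond (hb.comp Computable.fst) hf hg,
    fun i n => ?_⟩
  cases h : b i
  · simpa [h] using hg' i n
  · simpa [h] using hf' i n

theorem CR.sum {F : ι × ℕ → ℝ} (hF : CR F) {N : ι → ℕ} (hN : Computable N) :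
    CR (fun i => ∑ k ∈ Finset.range (N i), F (i, k)) := by
  obtain ⟨f, hf, hf'⟩ := hF
  -- the fold
  let S : ι × ℕ → ℕ → RatCode := fun p k =>
    Nat.rec (0, 0, 0) (fun y IH => ratAdd IH (f ((p.1, y), N p.1 * (p.2 + 1)))) k
  have hS : Computable fun p : ι × ℕ => S p (N p.1) := by
    refine Computable.nat_rec (f := fun p : ι × ℕ => N p.1)
      (g := fun _ : ι × ℕ => ((0, 0, 0) : RatCode))
      (h := fun (p : ι × ℕ) (q : ℕ × RatCode) => ratAdd q.2 (f ((p.1, q.1), N p.1 * (p.2 + 1))))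
      (hN.comp Computable.fst) (Computable.const _) ?_
    have h1 : Computable fun z : (ι × ℕ) × (ℕ × RatCode) => z.2.2 :=
      Computable.snd.comp Computable.snd
    have hNz : Computable fun z : (ι × ℕ) × (ℕ × RatCode) => N z.1.1 * (z.1.2 + 1) :=
      Primrec.nat_mul.to_comp.comp (hN.comp (Computable.fst.comp Computable.fst))
        (Computable.succ.comp (Computable.snd.comp Computable.fst))
    have h2 : Computable fun z : (ι × ℕ) × (ℕ × RatCode) =>
        f ((z.1.1, z.2.1), N z.1.1 * (z.1.2 + 1)) :=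
      hf.comp (((Computable.fst.comp Computable.fst).pair
        (Computable.fst.comp Computable.snd)).pair hNz)
    exact (primrec_ratAdd.to_comp.comp h1 h2).to₂
  refine ⟨fun p => S p (N p.1), hS, fun i n => ?_⟩
  have key : ∀ k, |∑ j ∈ Finset.range k, F (i, j) - ratVal (S (i, n) k)| ≤
      (k : ℝ) * (1 / (((N i * (n + 1) : ℕ) : ℝ) + 1)) := by
    intro k
    induction k with
    | zero => simp [S, ratVal]
    | succ k ih =>
      have h1 : S (i, n) (k + 1) = ratAdd (S (i, n) k) (f ((i, k), N i * (n + 1))) := rfl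
      rw [h1, ratVal_add, Finset.sum_range_succ]
      have h2 := hf' (i, k) (N i * (n + 1))
      have h3 : ∑ j ∈ Finset.range k, F (i, j) + F (i, k) -
          (ratVal (S (i, n) k) + ratVal (f ((i, k), N i * (n + 1)))) =
          (∑ j ∈ Finset.range k, F (i, j) - ratVal (S (i, n) k)) +
            (F (i, k) - ratVal (f ((i, k), N i * (n + 1)))) := by ring
      rw [h3]
      refine (abs_add_le _ _).trans ?_
      push_cast at *
      linarith
  refine (key (N i)).trans ?_
  rw [mul_one_div, div_le_div_iff₀ (by positivity) (by positivity)]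
  push_cast
  nlinarith [Nat.cast_nonneg (α := ℝ) (N i)]

theorem exp_neg_approx {r : ℝ} (hr : 0 ≤ r) {N : ℕ} (hN : 0 < N) :
    |Real.exp (-r) - ((N : ℝ) / (N + r)) ^ N| ≤ r ^ 2 / N := by
  have hNr : (0 : ℝ) < N := Nat.cast_pos.2 hN
  have hpos : (0 : ℝ) < N + r := by positivity
  -- upper bound
  have h1 : Real.exp (-r) ≤ ((N : ℝ) / (N + r)) ^ N := by
    have h2 : (1 + r / N) ^ N ≤ Real.exp r := by
      have h3 : 1 + r / N ≤ Real.exp (r / N) := by
        have := Real.add_one_le_exp (r / N)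
        linarith
      calc (1 + r / N) ^ N ≤ (Real.exp (r / N)) ^ N := by gcongr
        _ = Real.exp r := by
          rw [← Real.exp_nat_mul]
          congr 1
          field_simp
    rw [Real.exp_neg]
    have h4 : ((N : ℝ) / (N + r)) ^ N = ((1 + r / N) ^ N)⁻¹ := by
      rw [← inv_pow]
      congr 1
      field_simp
    rw [h4]
    exact inv_anti₀ (by positivity) h2
  rw [abs_sub_comm, abs_of_nonneg (by linarith)]
  -- lower bound
  have hq0 : 0 ≤ ((N : ℝ) / (N + r)) ^ N := by positivity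
  have hq1 : ((N : ℝ) / (N + r)) ^ N ≤ 1 := by
    apply pow_le_one₀ (by positivity)
    rw [div_le_one hpos]
    linarith
  by_cases hrN : r ≤ N
  · have h5 : (1 - r / N) ^ N ≤ Real.exp (-r) := by
      have h6 : 1 - r / N ≤ Real.exp (-(r / N)) := by
        have := Real.add_one_le_exp (-(r / N))
        linarith
      have h7 : 0 ≤ 1 - r / N := by
        rw [sub_nonneg, div_le_one hNr]
        exact hrN
      calc (1 - r / N) ^ N ≤ (Real.exp (-(r / N))) ^ N := by gcongr
        _ = Real.exp (-r) := by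
          rw [← Real.exp_nat_mul]
          congr 1
          field_simp
    have h8 : 1 - r ^ 2 / N ≤ (1 - (r / N) ^ 2) ^ N := by
      have h9 : -1 ≤ -(r / N) ^ 2 := by
        have : (r / N) ^ 2 ≤ 1 := by
          apply pow_le_one₀ (by positivity)
          rw [div_le_one hNr]
          exact hrN
        linarith
      have h10 := one_add_mul_le_pow (by linarith : (-2 : ℝ) ≤ -(r / N) ^ 2) N
      have h11 : 1 + (N : ℝ) * -(r / N) ^ 2 = 1 - r ^ 2 / N := by
        field_simp
        ring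
      rw [h11] at h10
      have h12 : 1 + -(r / N) ^ 2 = 1 - (r / N) ^ 2 := by ring
      rwa [h12] at h10
    have h13 : (1 - r / N) ^ N = ((N : ℝ) / (N + r)) ^ N * (1 - (r / N) ^ 2) ^ N := by
      rw [← mul_pow]
      congr 1
      field_simp
      ring
    have h14 : ((N : ℝ) / (N + r)) ^ N * (1 - r ^ 2 / N) ≤
        ((N : ℝ) / (N + r)) ^ N * (1 - (r / N) ^ 2) ^ N := by gcongr
    have h15 : ((N : ℝ) / (N + r)) ^ N * (r ^ 2 / N) ≤ 1 * (r ^ 2 / N) := by gcongr
    nlinarith
  · push Not at hrN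
    have h16 : 1 ≤ r ^ 2 / N := by
      rw [le_div_iff₀ hNr]
      have : (1 : ℝ) ≤ N := by exact_mod_cast hN
      nlinarith
    have := Real.exp_pos (-r)
    linarith

/-- `exp (-(a / (d + 1)))` is uniformly computable. -/
theorem CR.exp_neg {a d : ι → ℕ} (ha : Computable a) (hd : Computable d) :
    CR (fun i => Real.exp (-((a i : ℝ) / ((d i : ℝ) + 1)))) := by
  let N : ι × ℕ → ℕ := fun p => a p.1 * a p.1 * (p.2 + 1) + 1
  have ha' : Computable fun p : ι × ℕ => a p.1 := ha.comp Computable.fst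
  have hd' : Computable fun p : ι × ℕ => d p.1 := hd.comp Computable.fst
  have mul := Primrec.nat_mul.to_comp
  have add := Primrec.nat_add.to_comp
  have hN : Computable N :=
    Computable.succ.comp (mul.comp (mul.comp ha' ha') (Computable.succ.comp Computable.snd))
  have hpow := primrec_pow.to_comp
  have h1 : Computable fun p => (N p * (d p.1 + 1)) ^ (N p) :=
    hpow.comp (mul.comp hN (Computable.succ.comp hd')) hN
  have h2 : Computable fun p => (N p * (d p.1 + 1) + a p.1) ^ (N p) - 1 :=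
    Primrec.nat_sub.to_comp.comp
      (hpow.comp (add.comp (mul.comp hN (Computable.succ.comp hd')) ha') hN) (Computable.const 1)
  refine ⟨fun p => ((N p * (d p.1 + 1)) ^ (N p), 0, (N p * (d p.1 + 1) + a p.1) ^ (N p) - 1),
    h1.pair ((Computable.const 0).pair h2), fun i n => ?_⟩
  set M := N (i, n) with hM
  have hM1 : M = a i * a i * (n + 1) + 1 := rfl
  have hMpos : 0 < M := by rw [hM1]; positivity
  have hd0 : (0 : ℝ) < (d i : ℝ) + 1 := by positivity
  have key := exp_neg_approx (r := (a i : ℝ) / ((d i : ℝ) + 1)) (by positivity) hMpos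
  have hval : ratVal ((M * (d i + 1)) ^ M, 0, (M * (d i + 1) + a i) ^ M - 1) =
      ((M : ℝ) / (M + (a i : ℝ) / ((d i : ℝ) + 1))) ^ M := by
    simp only [ratVal]
    have h3 : 1 ≤ (M * (d i + 1) + a i) ^ M := Nat.one_le_iff_ne_zero.2 (by positivity)
    rw [Nat.cast_sub h3]
    push_cast
    rw [sub_add_cancel, sub_zero, ← div_pow]
    congr 1
    have : (0 : ℝ) < M := Nat.cast_pos.2 hMpos
    have h5 : (M : ℝ) * (d i + 1) + a i ≠ 0 := by positivity
    have h6 : (M : ℝ) + (a i : ℝ) / ((d i : ℝ) + 1) ≠ 0 := by positivity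
    field_simp
  show |Real.exp (-((a i : ℝ) / ((d i : ℝ) + 1))) -
    ratVal ((M * (d i + 1)) ^ M, 0, (M * (d i + 1) + a i) ^ M - 1)| ≤ _
  rw [hval]
  refine key.trans ?_
  have h7 : ((a i : ℝ) / ((d i : ℝ) + 1)) ^ 2 ≤ (a i : ℝ) * a i := by
    rw [← sq]
    apply pow_le_pow_left₀ (by positivity)
    apply div_le_self (by positivity)
    have : (0 : ℝ) ≤ d i := Nat.cast_nonneg _
    linarith
  have hMr : (M : ℝ) = (a i : ℝ) * a i * (n + 1) + 1 := by
    rw [hM1]
    push_cast
    ring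
  rw [div_le_div_iff₀ (by rw [hMr]; positivity) (by positivity), hMr]
  have hn : (0 : ℝ) ≤ n := Nat.cast_nonneg n
  nlinarith

end

end Vale.Agent.P113
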