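import Vale.Agent.P113.Series

/-! # Mixed derivatives of the force and their computability -/

open scoped ContDiff

namespace Vale.Agent.P113

/-! ### Time profiles -/

/-- The periodic time profile, supported in `(1/2, 1)` modulo `1`. -/
noncomputable def aT : ℝ → ℝ := per fun s => bump (2 * s - 1)

/-- The initial time profile, supported in `(0, 1/2)`. -/
noncomputable def bT (t : ℝ) : ℝ := bump (2 * t)

theorem flat_half : Flat fun s => bump (2 * s - 1) := by
  refine ⟨bump_contDiff.comp ((contDiff_const.mul contDiff_id).sub contDiff_const),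
    fun x hx => bump_of_nonpos (by linarith), fun x hx => bump_of_one_le (by linarith)⟩

theorem aT_contDiff : ContDiff ℝ ∞ aT := per_contDiff flat_half

theorem bT_contDiff : ContDiff ℝ ∞ bT := bump_contDiff.comp (contDiff_const.mul contDiff_id)

theorem iteratedDeriv_half (k : ℕ) (x : ℝ) :
    iteratedDeriv k (fun s => bump (2 * s - 1)) x = 2 ^ k * iteratedDeriv k bump (2 * x - 1) := by
  have h1 : ContDiff ℝ k (fun z => bump (z - 1)) :=
    (bump_contDiff.comp (contDiff_id.sub contDiff_const)).of_le (by exact_mod_cast le_top)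
  have h2 := iteratedDeriv_comp_const_mul h1 2
  have h3 := congrFun h2 x
  rw [iteratedDeriv_comp_sub_const] at h3
  exact h3

theorem iteratedDeriv_aT (k : ℕ) (x : ℝ) :
    iteratedDeriv k aT x = 2 ^ k * iteratedDeriv k bump (2 * Int.fract x - 1) := by
  unfold aT
  rw [iteratedDeriv_per flat_half]
  exact iteratedDeriv_half k _

theorem iteratedDeriv_bT (k : ℕ) (x : ℝ) :
    iteratedDeriv k bT x = 2 ^ k * iteratedDeriv k bump (2 * x) := by
  have h1 : ContDiff ℝ k bump := bump_contDiff.of_le (by exact_mod_cast le_top)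
  exact congrFun (iteratedDeriv_comp_const_mul h1 2) x

theorem CR_pow {ι : Type*} [Primcodable ι] {a k : ι → ℕ} (ha : Computable a) (hk : Computable k) :
    CR fun i => (a i : ℝ) ^ (k i) :=
  (CR.nat (primrec_pow.to_comp.comp ha hk)).congr fun i => by push_cast; rfl

theorem CR_two_pow {ι : Type*} [Primcodable ι] {k : ι → ℕ} (hk : Computable k) :
    CR fun i => (2 : ℝ) ^ (k i) :=
  (CR_pow (Computable.const 2) hk).congr fun i => by push_cast; rfl

theorem CR_aT : CR (fun p : ℕ × RatCode => iteratedDeriv p.1 aT (ratVal p.2)) := by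
  have hr : Computable fun p : ℕ × RatCode =>
      ratAdd (ratMul (2, 0, 0) (fractCode p.2)) (0, 1, 0) :=
    primrec_ratAdd.to_comp.comp (primrec_ratMul.to_comp.comp (Computable.const _)
      (primrec_fractCode.to_comp.comp Computable.snd)) (Computable.const _)
  have h1 := CR_bump.comp (Computable.fst.pair hr)
  refine ((CR_two_pow Computable.fst).mul h1).congr fun p => ?_
  simp only
  rw [iteratedDeriv_aT, ratVal_add, ratVal_mul, ratVal_fractCode]
  have e1 : ratVal (2, 0, 0) = 2 := by simp [ratVal]
  have e2 : ratVal (0, 1, 0) = -1 := by simp [ratVal]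
  rw [e1, e2]
  rfl

theorem CR_bT : CR (fun p : ℕ × RatCode => iteratedDeriv p.1 bT (ratVal p.2)) := by
  have hr : Computable fun p : ℕ × RatCode => ratMul (2, 0, 0) p.2 :=
    primrec_ratMul.to_comp.comp (Computable.const _) Computable.snd
  have h1 := CR_bump.comp (Computable.fst.pair hr)
  refine ((CR_two_pow Computable.fst).mul h1).congr fun p => ?_
  simp only
  rw [iteratedDeriv_bT, ratVal_mul]
  have e1 : ratVal (2, 0, 0) = 2 := by simp [ratVal]
  rw [e1]

/-! ### The coded profile of a machine -/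

/-- The amplitude of the `n`-th window for the machine description `D`. -/
noncomputable def ampSeq (D : Desc) (n : ℕ) : ℝ := amp (D, Denumerable.ofNat (List ℕ) n)

/-- The coded profile of the machine description `D`, a smooth `1`-periodic function. -/
noncomputable def hM (D : Desc) : ℝ → ℝ := per (prof (ampSeq D))

theorem ampSeq_nonneg (D : Desc) (n : ℕ) : 0 ≤ ampSeq D n := amp_nonneg _
theorem ampSeq_le_one (D : Desc) (n : ℕ) : ampSeq D n ≤ 1 := amp_le_one _

theorem flat_prof (D : Desc) : Flat (prof (ampSeq D)) :=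
  prof_flat (ampSeq_nonneg D) (ampSeq_le_one D)

theorem hM_contDiff (D : Desc) : ContDiff ℝ ∞ (hM D) := per_contDiff (flat_prof D)

theorem CR_hM : CR (fun p : Desc × (ℕ × RatCode) =>
    iteratedDeriv p.2.1 (hM p.1) (ratVal p.2.2)) := by
  -- the summand, with index `(p, n)`
  have hD : Computable fun z : (Desc × (ℕ × RatCode)) × ℕ => z.1.1 :=
    Computable.fst.comp Computable.fst
  have hk : Computable fun z : (Desc × (ℕ × RatCode)) × ℕ => z.1.2.1 :=
    Computable.fst.comp (Computable.snd.comp Computable.fst)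
  have hr : Computable fun z : (Desc × (ℕ × RatCode)) × ℕ => z.1.2.2 :=
    Computable.snd.comp (Computable.snd.comp Computable.fst)
  have hn : Computable fun z : (Desc × (ℕ × RatCode)) × ℕ => z.2 := Computable.snd
  have h1 : CR fun z : (Desc × (ℕ × RatCode)) × ℕ => ampSeq z.1.1 z.2 :=
    CR_amp.comp (hD.pair ((Computable.ofNat (List ℕ)).comp hn))
  have h2 : CR fun z : (Desc × (ℕ × RatCode)) × ℕ => ((z.2.factorial : ℝ))⁻¹ := by
    have hc : Computable fun z : (Desc × (ℕ × RatCode)) × ℕ =>
        ((1, 0, z.2.factorial - 1) : RatCode) :=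
      (Computable.const 1).pair ((Computable.const 0).pair
        (Primrec.nat_sub.to_comp.comp (primrec_factorial.to_comp.comp hn) (Computable.const 1)))
    refine (CR.rat hc).congr fun z => ?_
    simp only [ratVal]
    rw [Nat.cast_sub (Nat.succ_le_of_lt (Nat.factorial_pos _))]
    push_cast
    rw [sub_add_cancel, sub_zero, one_div]
  have hn1 : Computable fun z : (Desc × (ℕ × RatCode)) × ℕ => z.2 + 1 := Computable.succ.comp hn
  have hpow : Computable fun z : (Desc × (ℕ × RatCode)) × ℕ => 2 ^ (z.2 + 1) :=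
    primrec_pow.to_comp.comp (Computable.const 2) hn1
  have h3 : CR fun z : (Desc × (ℕ × RatCode)) × ℕ => (((2 ^ (z.2 + 1) : ℕ)) : ℝ) ^ z.1.2.1 :=
    CR_pow hpow hk
  have harg : Computable fun z : (Desc × (ℕ × RatCode)) × ℕ =>
      ratAdd (ratMul (2 ^ (z.2 + 1), 0, 0) (fractCode z.1.2.2)) (0, 1, 0) :=
    primrec_ratAdd.to_comp.comp (primrec_ratMul.to_comp.comp
      (hpow.pair (Computable.const (0, 0))) (primrec_fractCode.to_comp.comp hr))
      (Computable.const _)
  have h4 := CR_bump.comp (hk.pair harg)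
  have hsum := CR.sum (((h1.mul h2).mul h3).mul h4)
    (N := fun p : Desc × (ℕ × RatCode) => p.2.2.2.2 + 1)
    (Computable.succ.comp (primrec_den.to_comp.comp (Computable.snd.comp Computable.snd)))
  refine hsum.congr fun p => ?_
  obtain ⟨D, k, r⟩ := p
  simp only
  unfold hM
  rw [iteratedDeriv_per (flat_prof D), iteratedDeriv_prof (ampSeq_nonneg D) (ampSeq_le_one D), per,
    ← ratVal_fractCode]
  have h5 : ratVal (fractCode r) =
      (((r.1 + r.2.1 * r.2.2) % (r.2.2 + 1) : ℕ) : ℝ) / ((r.2.2 : ℝ) + 1) := by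
    simp [ratVal, fractCode]
  have h6 : ∀ n : ℕ, ratVal (ratAdd (ratMul (2 ^ (n + 1), 0, 0) (fractCode r)) (0, 1, 0)) =
      2 ^ (n + 1) * ratVal (fractCode r) - 1 := by
    intro n
    rw [ratVal_add, ratVal_mul]
    have e1 : ratVal (2 ^ (n + 1), 0, 0) = 2 ^ (n + 1) := by simp [ratVal]
    have e2 : ratVal (0, 1, 0) = -1 := by simp [ratVal]
    rw [e1, e2]
    rfl
  simp only [h6]
  rw [h5, profK_rat]
  refine Finset.sum_congr rfl fun n _ => ?_
  unfold coefK
  push_cast
  ring

/-! ### Mixed derivatives of sums of products -/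

/-- The space-time functions `A(t) B(x₁) + C(t) D(x₁)`. -/
def two (A B C D : ℝ → ℝ) (y : Fin 4 → ℝ) : ℝ := A (y 0) * B (y 1) + C (y 0) * D (y 1)

theorem contDiff_iteratedDeriv {φ : ℝ → ℝ} (h : ContDiff ℝ ∞ φ) (k : ℕ) :
    ContDiff ℝ ∞ (iteratedDeriv k φ) := by
  induction k with
  | zero => simpa using h
  | succ k ih =>
    rw [iteratedDeriv_succ]
    exact (contDiff_infty_iff_deriv.1 ih).2

theorem hasDerivAt_of_smooth {φ : ℝ → ℝ} (h : ContDiff ℝ ∞ φ) (x : ℝ) :
    HasDerivAt φ (deriv φ x) x :=
  (h.differentiable (by simp)).differentiableAt.hasDerivAt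

theorem pd_two_zero {A B C D : ℝ → ℝ} (hA : ContDiff ℝ ∞ A) (hC : ContDiff ℝ ∞ C) :
    pd 0 (two A B C D) = two (deriv A) B (deriv C) D := by
  funext y
  unfold pd two
  have h1 : (fun s : ℝ => A (Function.update y 0 s 0) * B (Function.update y 0 s 1) +
      C (Function.update y 0 s 0) * D (Function.update y 0 s 1)) =
      fun s => A s * B (y 1) + C s * D (y 1) := by
    funext s
    simp
  rw [h1]
  exact (((hasDerivAt_of_smooth hA (y 0)).mul_const (B (y 1))).add
    ((hasDerivAt_of_smooth hC (y 0)).mul_const (D (y 1)))).deriv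

theorem pd_two_one {A B C D : ℝ → ℝ} (hB : ContDiff ℝ ∞ B) (hD : ContDiff ℝ ∞ D) :
    pd 1 (two A B C D) = two A (deriv B) C (deriv D) := by
  funext y
  unfold pd two
  have h1 : (fun s : ℝ => A (Function.update y 1 s 0) * B (Function.update y 1 s 1) +
      C (Function.update y 1 s 0) * D (Function.update y 1 s 1)) =
      fun s => A (y 0) * B s + C (y 0) * D s := by
    funext s
    simp
  rw [h1]
  exact (((hasDerivAt_of_smooth hB (y 1)).const_mul (A (y 0))).add
    ((hasDerivAt_of_smooth hD (y 1)).const_mul (C (y 0)))).deriv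

theorem pd_two_ge (A B C D : ℝ → ℝ) {j : Fin 4} (h0 : j ≠ 0) (h1 : j ≠ 1) :
    pd j (two A B C D) = fun _ => 0 := by
  funext y
  unfold pd two
  have h2 : (fun s : ℝ => A (Function.update y j s 0) * B (Function.update y j s 1) +
      C (Function.update y j s 0) * D (Function.update y j s 1)) =
      fun _ => A (y 0) * B (y 1) + C (y 0) * D (y 1) := by
    funext s
    rw [Function.update_of_ne h0.symm, Function.update_of_ne h1.symm]
  rw [h2]
  simp

theorem pd_zero_fun {n : ℕ} (j : Fin n) : pd j (fun _ : Fin n → ℝ => (0 : ℝ)) = fun _ => 0 := by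
  funext y
  unfold pd
  simp

theorem mixedD_two {A B C D : ℝ → ℝ} (hA : ContDiff ℝ ∞ A) (hB : ContDiff ℝ ∞ B)
    (hC : ContDiff ℝ ∞ C) (hD : ContDiff ℝ ∞ D) (L : List (Fin 4)) :
    mixedD L (two A B C D) = if L.count 2 + L.count 3 = 0 then
      two (iteratedDeriv (L.count 0) A) (iteratedDeriv (L.count 1) B)
        (iteratedDeriv (L.count 0) C) (iteratedDeriv (L.count 1) D) else fun _ => 0 := by
  induction L with
  | nil => simp [mixedD]
  | cons j L ih =>
    rw [mixedD, ih]
    by_cases hL : L.count 2 + L.count 3 = 0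
    · rw [if_pos hL]
      by_cases h0 : j = 0
      · subst h0
        rw [pd_two_zero (contDiff_iteratedDeriv hA _) (contDiff_iteratedDeriv hC _)]
        have e0 : (0 :: L).count (0 : Fin 4) = L.count 0 + 1 := List.count_cons_self
        have e1 : (0 :: L).count (1 : Fin 4) = L.count 1 := List.count_cons_of_ne (by decide)
        have e2 : (0 :: L).count (2 : Fin 4) = L.count 2 := List.count_cons_of_ne (by decide)
        have e3 : (0 :: L).count (3 : Fin 4) = L.count 3 := List.count_cons_of_ne (by decide)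
        rw [e0, e1, e2, e3, if_pos hL, iteratedDeriv_succ, iteratedDeriv_succ]
      · by_cases h1 : j = 1
        · subst h1
          rw [pd_two_one (contDiff_iteratedDeriv hB _) (contDiff_iteratedDeriv hD _)]
          have e0 : (1 :: L).count (0 : Fin 4) = L.count 0 := List.count_cons_of_ne (by decide)
          have e1 : (1 :: L).count (1 : Fin 4) = L.count 1 + 1 := List.count_cons_self
          have e2 : (1 :: L).count (2 : Fin 4) = L.count 2 := List.count_cons_of_ne (by decide)
          have e3 : (1 :: L).count (3 : Fin 4) = L.count 3 := List.count_cons_of_ne (by decide)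
          rw [e0, e1, e2, e3, if_pos hL, iteratedDeriv_succ, iteratedDeriv_succ]
        · rw [pd_two_ge _ _ _ _ h0 h1, if_neg]
          fin_cases j
          · exact absurd rfl h0
          · exact absurd rfl h1
          · simp
          · simp
    · rw [if_neg hL, pd_zero_fun, if_neg]
      intro h
      apply hL
      have h2 : L.count 2 ≤ (j :: L).count 2 := List.count_le_count_cons
      have h3 : L.count 3 ≤ (j :: L).count 3 := List.count_le_count_cons
      omega

theorem primrec_count (j : Fin 4) : Primrec fun L : List (Fin 4) => L.count j := by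
  have h1 : PrimrecPred fun a : Fin 4 => a = j := Primrec.eq.comp Primrec.id (Primrec.const j)
  have h2 := Primrec.list_length.comp (Primrec.listFilter h1)
  refine h2.of_eq fun L => ?_
  rw [List.count_eq_length_filter]
  congr 1

/-- The data at which a derivative of the force is requested. -/
abbrev Req : Type := Fin 3 × List (Fin 4) × (RatCode × RatCode × RatCode × RatCode)

/-- The rational point of a request. -/
noncomputable def reqPt (q : RatCode × RatCode × RatCode × RatCode) : Fin 4 → ℝ :=
  ![ratVal q.1, ratVal q.2.1, ratVal q.2.2.1, ratVal q.2.2.2]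

/-- Computability of the mixed derivatives of a family of space-time functions of the form
`A(t) B(x₁) + C(t) D(x₁)`. -/
theorem CR_two {ι : Type*} [Primcodable ι] {A B C D : ι → ℝ → ℝ}
    (hA : ∀ i, ContDiff ℝ ∞ (A i)) (hB : ∀ i, ContDiff ℝ ∞ (B i))
    (hC : ∀ i, ContDiff ℝ ∞ (C i)) (hD : ∀ i, ContDiff ℝ ∞ (D i))
    (cA : CR fun p : ι × (ℕ × RatCode) => iteratedDeriv p.2.1 (A p.1) (ratVal p.2.2))
    (cB : CR fun p : ι × (ℕ × RatCode) => iteratedDeriv p.2.1 (B p.1) (ratVal p.2.2))
    (cC : CR fun p : ι × (ℕ × RatCode) => iteratedDeriv p.2.1 (C p.1) (ratVal p.2.2))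
    (cD : CR fun p : ι × (ℕ × RatCode) => iteratedDeriv p.2.1 (D p.1) (ratVal p.2.2)) :
    CR fun z : ι × Req =>
      mixedD z.2.2.1 (two (A z.1) (B z.1) (C z.1) (D z.1)) (reqPt z.2.2.2) := by
  have hL : Primrec fun z : ι × Req => z.2.2.1 := Primrec.fst.comp (Primrec.snd.comp Primrec.snd)
  have hq : Primrec fun z : ι × Req => z.2.2.2 := Primrec.snd.comp (Primrec.snd.comp Primrec.snd)
  have hq0 : Primrec fun z : ι × Req => z.2.2.2.1 := Primrec.fst.comp hq
  have hq1 : Primrec fun z : ι × Req => z.2.2.2.2.1 := Primrec.fst.comp (Primrec.snd.comp hq)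
  have hc : ∀ j, Primrec fun z : ι × Req => z.2.2.1.count j := fun j => (primrec_count j).comp hL
  have s0 : Computable fun z : ι × Req => (z.1, (z.2.2.1.count 0, z.2.2.2.1)) :=
    (Primrec.fst.pair ((hc 0).pair hq0)).to_comp
  have s1 : Computable fun z : ι × Req => (z.1, (z.2.2.1.count 1, z.2.2.2.2.1)) :=
    (Primrec.fst.pair ((hc 1).pair hq1)).to_comp
  have hsum := ((cA.comp s0).mul (cB.comp s1)).add ((cC.comp s0).mul (cD.comp s1))
  have hb : Computable fun z : ι × Req => decide (z.2.2.1.count 2 + z.2.2.1.count 3 = 0) := by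
    have h : Primrec fun z : ι × Req => decide (z.2.2.1.count 2 + z.2.2.1.count 3 = 0) :=
      (PrimrecRel.comp Primrec.eq (Primrec.nat_add.comp (hc 2) (hc 3)) (Primrec.const 0)).decide
    exact h.to_comp
  have hz : CR (fun _ : ι × Req => (0 : ℝ)) :=
    (CR.nat (r := fun _ : ι × Req => 0) (Computable.const 0)).congr fun _ => by simp
  refine (CR.bcond hsum hz hb).congr fun z => ?_
  rw [mixedD_two (hA _) (hB _) (hC _) (hD _)]
  by_cases h : z.2.2.1.count 2 + z.2.2.1.count 3 = 0
  · rw [if_pos h, decide_eq_true h, cond_true]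
    rfl
  · rw [if_neg h, decide_eq_false h, cond_false]

end Vale.Agent.P113
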