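import Mathlib

/-!
# Auxiliary definitions for P113

Functions on the flat torus `(ℝ/ℤ)³` are functions on `ℝ³ = Fin 3 → ℝ` that are invariant under
translation by `ℤ³`.
-/

open scoped ContDiff

namespace Vale.Agent.P113

/-! ### Machine descriptions -/

/-- Finite descriptions of machines. -/
abbrev Desc : Type := ℕ × ℕ × List Bool × List (List (ℕ × ℕ × ℕ))

/-! ### Rational numbers, computable reals -/

/-- A code `(a, b, d)` of the rational number `(a - b) / (d + 1)`. -/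
abbrev RatCode : Type := ℕ × ℕ × ℕ

/-- The rational number with code `(a, b, d)`, as a real number. -/
noncomputable def ratVal (r : RatCode) : ℝ := ((r.1 : ℝ) - (r.2.1 : ℝ)) / ((r.2.2 : ℝ) + 1)

/-- A real number is computable if an algorithm returns, for each `n`, a rational number at
distance at most `1 / (n + 1)` from it. -/
def ComputableReal (x : ℝ) : Prop :=
  ∃ g : ℕ → RatCode, Computable g ∧ ∀ n, |x - ratVal (g n)| ≤ 1 / ((n : ℝ) + 1)

/-! ### Derivatives -/

/-- The partial derivative of `g` in the coordinate `j`. -/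
noncomputable def pd {n : ℕ} (j : Fin n) (g : (Fin n → ℝ) → ℝ) (x : Fin n → ℝ) : ℝ :=
  deriv (fun s => g (Function.update x j s)) (x j)

/-- The mixed partial derivative of `g` along a list of coordinates. -/
noncomputable def mixedD {n : ℕ} : List (Fin n) → ((Fin n → ℝ) → ℝ) → (Fin n → ℝ) → ℝ
  | [], g => g
  | j :: L, g => pd j (mixedD L g)

/-! ### Vector fields on the torus -/

/-- Time-dependent vector fields `f t x`, with `t` the time and `x` the point of `ℝ³`. -/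
abbrev Field : Type := ℝ → (Fin 3 → ℝ) → (Fin 3 → ℝ)

/-- `g` descends to the torus `(ℝ/ℤ)³`. -/
def SpacePeriodic {α : Type} (g : (Fin 3 → ℝ) → α) : Prop :=
  ∀ (x : Fin 3 → ℝ) (k : Fin 3 → ℤ), g (fun i => x i + (k i : ℝ)) = g x

/-- A smooth time-dependent vector field on the torus. -/
def SmoothField (f : Field) : Prop :=
  (∀ t, SpacePeriodic (f t)) ∧ ContDiff ℝ ∞ (fun q : ℝ × (Fin 3 → ℝ) => f q.1 q.2)

/-- The program `c` returns each mixed derivative (`L` is the list of the directions, `0` being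
the time and `1, 2, 3` the space coordinates) of each component `f_i` at each rational point
`q = (t, x)` with `t ≥ 0` to any prescribed rational accuracy `ε > 0`. -/
def Computes (c : Nat.Partrec.Code) (f : Field) : Prop :=
  ∀ (i : Fin 3) (L : List (Fin 4)) (q : Fin 4 → RatCode) (ε : RatCode),
    0 ≤ ratVal (q 0) → 0 < ratVal ε →
      ∃ r : RatCode,
        Encodable.encode r ∈ c.eval (Encodable.encode (i, L, (q 0, q 1, q 2, q 3), ε)) ∧
        |mixedD L (fun y : Fin 4 → ℝ => f (y 0) (fun j => y j.succ) i)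
            (fun k => ratVal (q k)) - ratVal r| ≤ ratVal ε

/-- `(u, p)` is a classical solution on `[0, T]` of the incompressible Navier-Stokes equations on
the torus with viscosity `ν`, force `f` and initial velocity `0`. -/
structure IsClassicalSolution (ν : ℝ) (f : Field) (T : ℝ) (u : Field)
    (p : ℝ → (Fin 3 → ℝ) → ℝ) : Prop where
  periodic_u : ∀ t ∈ Set.Icc 0 T, SpacePeriodic (u t)
  periodic_p : ∀ t ∈ Set.Icc 0 T, SpacePeriodic (p t)
  cont_u : ContinuousOn (fun q : ℝ × (Fin 3 → ℝ) => u q.1 q.2) (Set.Icc 0 T ×ˢ Set.univ)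
  diff_t : ∀ t ∈ Set.Icc 0 T, ∀ x, DifferentiableWithinAt ℝ (fun s => u s x) (Set.Icc 0 T) t
  cont_ut : ContinuousOn
    (fun q : ℝ × (Fin 3 → ℝ) => derivWithin (fun s => u s q.2) (Set.Icc 0 T) q.1)
    (Set.Icc 0 T ×ˢ Set.univ)
  space_u : ∀ t ∈ Set.Icc 0 T, ContDiff ℝ 2 (u t)
  cont_ux : ∀ i j, ContinuousOn
    (fun q : ℝ × (Fin 3 → ℝ) => pd j (fun y => u q.1 y i) q.2) (Set.Icc 0 T ×ˢ Set.univ)
  cont_uxx : ∀ i j k, ContinuousOn
    (fun q : ℝ × (Fin 3 → ℝ) => pd k (pd j (fun y => u q.1 y i)) q.2)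
    (Set.Icc 0 T ×ˢ Set.univ)
  cont_p : ContinuousOn (fun q : ℝ × (Fin 3 → ℝ) => p q.1 q.2) (Set.Icc 0 T ×ˢ Set.univ)
  space_p : ∀ t ∈ Set.Icc 0 T, ContDiff ℝ 1 (p t)
  cont_px : ∀ j, ContinuousOn
    (fun q : ℝ × (Fin 3 → ℝ) => pd j (p q.1) q.2) (Set.Icc 0 T ×ˢ Set.univ)
  momentum : ∀ t ∈ Set.Icc 0 T, ∀ (x : Fin 3 → ℝ) (i : Fin 3),
    derivWithin (fun s => u s x i) (Set.Icc 0 T) t + ∑ j, u t x j * pd j (fun y => u t y i) x =
      -pd i (p t) x + ν * ∑ j, pd j (pd j (fun y => u t y i)) x + f t x i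
  div_free : ∀ t ∈ Set.Icc 0 T, ∀ x : Fin 3 → ℝ, ∑ j, pd j (fun y => u t y j) x = 0
  initial : ∀ x, u 0 x = 0
  mean_zero : ∀ t ∈ Set.Icc 0 T, ∫ x in Set.Icc (0 : Fin 3 → ℝ) 1, p t x = 0

/-- `X : ℝ → ℝ³` is (a lift of) the trajectory of the point `a` of the torus. -/
def IsTrajectory (u : Field) (a : Fin 3 → UnitAddCircle) (X : ℝ → (Fin 3 → ℝ)) : Prop :=
  (∀ i, ((X 0 i : ℝ) : UnitAddCircle) = a i) ∧
    ∀ t, 0 ≤ t → HasDerivWithinAt X (u t (X t)) (Set.Ici 0) t

end Vale.Agent.P113
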