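import Mathlib
import Vale.Agent.P113.Defs

/-!
# Uniqueness of classical solutions (energy method)
-/

open Set MeasureTheory
open scoped ContDiff Topology

namespace Vale.Agent.P113

/-- The closed unit cube. -/
abbrev cube : Set (Fin 3 → ℝ) := Set.Icc (0 : Fin 3 → ℝ) 1

lemma isCompact_cube : IsCompact cube := isCompact_Icc

lemma hasDerivAt_pd {g : (Fin 3 → ℝ) → ℝ} {x : Fin 3 → ℝ} (hg : DifferentiableAt ℝ g x)
    (j : Fin 3) :
    HasDerivAt (fun s => g (Function.update x j s)) (fderiv ℝ g x (Pi.single j 1)) (x j) := by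
  have h1 : HasDerivAt (fun s => Function.update x j s) (Pi.single j (1 : ℝ)) (x j) :=
    hasDerivAt_update x j (x j)
  have h2 : HasFDerivAt g (fderiv ℝ g x) (Function.update x j (x j)) := by
    rw [Function.update_eq_self]
    exact hg.hasFDerivAt
  exact h2.comp_hasDerivAt (x j) h1

lemma pd_eq_fderiv {g : (Fin 3 → ℝ) → ℝ} {x : Fin 3 → ℝ} (hg : DifferentiableAt ℝ g x)
    (j : Fin 3) : pd j g x = fderiv ℝ g x (Pi.single j 1) :=
  (hasDerivAt_pd hg j).deriv

lemma hasDerivAt_pd' {g : (Fin 3 → ℝ) → ℝ} {x : Fin 3 → ℝ} (hg : DifferentiableAt ℝ g x)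
    (j : Fin 3) :
    HasDerivAt (fun s => g (Function.update x j s)) (pd j g x) (x j) := by
  rw [pd_eq_fderiv hg j]
  exact hasDerivAt_pd hg j

lemma contDiff_pd {g : (Fin 3 → ℝ) → ℝ} (hg : ContDiff ℝ 2 g) (j : Fin 3) :
    ContDiff ℝ 1 (pd j g) := by
  have h : pd j g = fun x => fderiv ℝ g x (Pi.single j 1) := by
    funext x
    exact pd_eq_fderiv (hg.differentiable (by norm_num) x) j
  rw [h]
  exact (hg.fderiv_right (m := 1) (by norm_num)).clm_apply contDiff_const

lemma continuous_pd {g : (Fin 3 → ℝ) → ℝ} (hg : ContDiff ℝ 1 g) (j : Fin 3) :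
    Continuous (pd j g) := by
  have h : pd j g = fun x => fderiv ℝ g x (Pi.single j 1) := by
    funext x
    exact pd_eq_fderiv (hg.differentiable (by norm_num) x) j
  rw [h]
  exact (hg.continuous_fderiv (by norm_num)).clm_apply continuous_const

lemma pd_mul {g h : (Fin 3 → ℝ) → ℝ} {x : Fin 3 → ℝ} (hg : DifferentiableAt ℝ g x)
    (hh : DifferentiableAt ℝ h x) (j : Fin 3) :
    pd j (fun y => g y * h y) x = pd j g x * h x + g x * pd j h x := by
  have h1 := (hasDerivAt_pd' hg j).mul (hasDerivAt_pd' hh j)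
  simp only [Function.update_eq_self] at h1
  exact h1.deriv

lemma pd_add {g h : (Fin 3 → ℝ) → ℝ} {x : Fin 3 → ℝ} (hg : DifferentiableAt ℝ g x)
    (hh : DifferentiableAt ℝ h x) (j : Fin 3) :
    pd j (fun y => g y + h y) x = pd j g x + pd j h x :=
  ((hasDerivAt_pd' hg j).add (hasDerivAt_pd' hh j)).deriv

lemma pd_sub {g h : (Fin 3 → ℝ) → ℝ} {x : Fin 3 → ℝ} (hg : DifferentiableAt ℝ g x)
    (hh : DifferentiableAt ℝ h x) (j : Fin 3) :
    pd j (fun y => g y - h y) x = pd j g x - pd j h x :=
  ((hasDerivAt_pd' hg j).sub (hasDerivAt_pd' hh j)).deriv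

lemma pd_const_mul {g : (Fin 3 → ℝ) → ℝ} {x : Fin 3 → ℝ} (hg : DifferentiableAt ℝ g x)
    (c : ℝ) (j : Fin 3) :
    pd j (fun y => c * g y) x = c * pd j g x :=
  ((hasDerivAt_pd' hg j).const_mul c).deriv

/-- The integral over the unit cube of a coordinate derivative of a periodic function vanishes. -/
lemma integral_pd_eq_zero {G : (Fin 3 → ℝ) → ℝ} (hG : ContDiff ℝ 1 G) (hper : SpacePeriodic G)
    (j : Fin 3) : ∫ x in cube, pd j G x = 0 := by
  have hdiff : Differentiable ℝ G := hG.differentiable (by norm_num)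
  have key := integral_divergence_of_hasFDerivAt_off_countable' (n := 2) (E := ℝ)
    (0 : Fin 3 → ℝ) 1 (by intro i; simp)
    (fun i x => if i = j then G x else 0)
    (fun i x => if i = j then fderiv ℝ G x else 0) ∅ Set.countable_empty
    (by
      intro i
      by_cases hij : i = j
      · simp only [hij, if_true]; exact hG.continuous.continuousOn
      · simp only [hij, if_false]; exact continuousOn_const)
    (by
      intro x _ i
      by_cases hij : i = j
      · simp only [hij, if_true]; exact (hdiff x).hasFDerivAt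
      · simp only [hij, if_false]; exact hasFDerivAt_const _ _)
    (by
      have : (fun x => ∑ i, (if i = j then fderiv ℝ G x else 0) (Pi.single i (1:ℝ))) =
          fun x => pd j G x := by
        funext x
        rw [Finset.sum_eq_single j]
        · simp only [if_true]; exact (pd_eq_fderiv (hdiff x) j).symm
        · intro i _ hij; simp [hij]
        · simp
      rw [this]
      exact (continuous_pd hG j).continuousOn.integrableOn_compact isCompact_Icc)
  have h1 : (fun x => ∑ i, (if i = j then fderiv ℝ G x else 0) (Pi.single i (1:ℝ))) =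
      fun x => pd j G x := by
    funext x
    rw [Finset.sum_eq_single j]
    · simp only [if_true]; exact (pd_eq_fderiv (hdiff x) j).symm
    · intro i _ hij; simp [hij]
    · simp
  rw [h1] at key
  rw [key]
  apply Finset.sum_eq_zero
  intro i _
  by_cases hij : i = j
  · subst hij
    simp only [if_true]
    rw [sub_eq_zero]
    congr 1
    funext x
    have := hper (i.insertNth ((0 : Fin 3 → ℝ) i) x) (Pi.single i 1)
    rw [← this]
    congr 1
    funext k
    refine Fin.succAboveCases i ?_ ?_ k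
    · simp
    · intro l
      simp [Fin.succAbove_ne]
  · simp [hij]

lemma periodic_const_add {g : (Fin 3 → ℝ) → ℝ} (hg : SpacePeriodic g) (k : Fin 3 → ℤ) :
    (fun x => g (fun i => x i + (k i : ℝ))) = g := by
  funext x; exact hg x k

lemma periodic_pd {g : (Fin 3 → ℝ) → ℝ} (hg : SpacePeriodic g) (j : Fin 3) :
    SpacePeriodic (pd j g) := by
  intro x k
  unfold pd
  have h1 : (fun s => g (Function.update (fun i => x i + (k i : ℝ)) j s)) =
      fun s => (fun r => g (Function.update x j r)) (s - (k j : ℝ)) := by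
    funext s
    have := hg (Function.update x j (s - (k j : ℝ))) k
    simp only
    rw [← this]
    congr 1
    funext i
    by_cases hij : i = j
    · subst hij; simp
    · simp [hij]
  rw [h1]
  have h2 := deriv_comp_sub_const (f := fun r => g (Function.update x j r)) (k j : ℝ)
    (x j + (k j : ℝ))
  simp only [add_sub_cancel_right] at h2
  exact h2

/-- The static energy identity. -/
lemma energy_static {u w : Fin 3 → (Fin 3 → ℝ) → ℝ} {π : (Fin 3 → ℝ) → ℝ} {ν : ℝ} (hν : 0 ≤ ν)
    (hu : ∀ i, ContDiff ℝ 2 (u i)) (hw : ∀ i, ContDiff ℝ 2 (w i)) (hπ : ContDiff ℝ 1 π)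
    (pu : ∀ i, SpacePeriodic (u i)) (pw : ∀ i, SpacePeriodic (w i)) (pπ : SpacePeriodic π)
    (du : ∀ x, ∑ j, pd j (u j) x = 0) (dw : ∀ x, ∑ j, pd j (w j) x = 0) :
    ∫ x in cube, ∑ i, w i x * (-(∑ j, u j x * pd j (w i) x) - pd i π x
      + ν * ∑ j, pd j (pd j (w i)) x) ≤ 0 := by
  have hu1 : ∀ i, ContDiff ℝ 1 (u i) := fun i => (hu i).of_le (by norm_num)
  have hw1 : ∀ i, ContDiff ℝ 1 (w i) := fun i => (hw i).of_le (by norm_num)
  have hwd : ∀ i j, ContDiff ℝ 1 (pd j (w i)) := fun i j => contDiff_pd (hw i) j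
  set F : Fin 3 → (Fin 3 → ℝ) → ℝ := fun j x =>
    (-(1/2)) * (u j x * ∑ i, w i x * w i x) - w j x * π x + ν * ∑ i, w i x * pd j (w i) x with hF
  have hFc : ∀ j, ContDiff ℝ 1 (F j) := by
    intro j
    refine ContDiff.add (ContDiff.sub ?_ ?_) ?_
    · exact contDiff_const.mul ((hu1 j).mul (ContDiff.sum fun i _ => (hw1 i).mul (hw1 i)))
    · exact (hw1 j).mul hπ
    · exact contDiff_const.mul (ContDiff.sum fun i _ => (hw1 i).mul (hwd i j))
  have hFp : ∀ j, SpacePeriodic (F j) := by
    intro j x k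
    simp only [hF]
    have h1 : ∀ i, w i (fun l => x l + (k l : ℝ)) = w i x := fun i => pw i x k
    have h2 : ∀ i, pd j (w i) (fun l => x l + (k l : ℝ)) = pd j (w i) x :=
      fun i => periodic_pd (pw i) j x k
    simp only [h1, h2, pu j x k, pπ x k]
  have hd0 : ∀ {g : (Fin 3 → ℝ) → ℝ}, ContDiff ℝ 1 g → ∀ x, DifferentiableAt ℝ g x :=
    fun hg x => hg.differentiable (by norm_num) x
  have hpdF : ∀ j x, pd j (F j) x =
      (-(1/2)) * (pd j (u j) x * (∑ i, w i x * w i x) +
        u j x * (∑ i, (pd j (w i) x * w i x + w i x * pd j (w i) x)))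
      - (pd j (w j) x * π x + w j x * pd j π x)
      + ν * ∑ i, (pd j (w i) x * pd j (w i) x + w i x * pd j (pd j (w i)) x) := by
    intro j x
    have e1 : ∀ i, HasDerivAt (fun s => w i (Function.update x j s)) (pd j (w i) x) (x j) :=
      fun i => hasDerivAt_pd' (hd0 (hw1 i) x) j
    have e2 : ∀ i, HasDerivAt (fun s => pd j (w i) (Function.update x j s))
        (pd j (pd j (w i)) x) (x j) :=
      fun i => hasDerivAt_pd' (hd0 (hwd i j) x) j
    have e3 := hasDerivAt_pd' (hd0 (hu1 j) x) j
    have e4 := hasDerivAt_pd' (hd0 hπ x) j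
    have e5 : HasDerivAt (fun s => ∑ i, w i (Function.update x j s) * w i (Function.update x j s))
        (∑ i, (pd j (w i) x * w i x + w i x * pd j (w i) x)) (x j) := by
      have := HasDerivAt.fun_sum (u := Finset.univ) (fun i _ => (e1 i).fun_mul (e1 i))
      simpa only [Function.update_eq_self] using this
    have e6 : HasDerivAt
        (fun s => ∑ i, w i (Function.update x j s) * pd j (w i) (Function.update x j s))
        (∑ i, (pd j (w i) x * pd j (w i) x + w i x * pd j (pd j (w i)) x)) (x j) := by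
      have := HasDerivAt.fun_sum (u := Finset.univ) (fun i _ => (e1 i).fun_mul (e2 i))
      simpa only [Function.update_eq_self] using this
    have e7 := (((e3.mul e5).const_mul (-(1/2))).sub ((e1 j).mul e4)).add (e6.const_mul ν)
    simp only [Function.update_eq_self] at e7
    exact e7.deriv
  have hpt : ∀ x, ∑ i, w i x * (-(∑ j, u j x * pd j (w i) x) - pd i π x
      + ν * ∑ j, pd j (pd j (w i)) x) =
      (∑ j, pd j (F j) x) - ν * ∑ i, ∑ j, (pd j (w i) x) ^ 2 := by
    intro x
    simp only [hpdF]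
    have h1 := du x
    have h2 := dw x
    simp only [Fin.sum_univ_three] at h1 h2 ⊢
    have h1' : pd 0 (u 0) x = - pd 1 (u 1) x - pd 2 (u 2) x := by linarith
    have h2' : pd 0 (w 0) x = - pd 1 (w 1) x - pd 2 (w 2) x := by linarith
    rw [h1']
    have h3 : π x * (pd 0 (w 0) x + pd 1 (w 1) x + pd 2 (w 2) x) = 0 := by rw [h2]; ring
    linear_combination h3
  have hint : ∀ j, IntegrableOn (pd j (F j)) cube := fun j =>
    (continuous_pd (hFc j) j).continuousOn.integrableOn_compact isCompact_Icc
  have hcq : Continuous (fun x => ν * ∑ i, ∑ j, (pd j (w i) x) ^ 2) :=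
    continuous_const.mul (continuous_finsetSum _ fun i _ => continuous_finsetSum _ fun j _ =>
      (hwd i j).continuous.pow 2)
  have hintq : IntegrableOn (fun x => ν * ∑ i, ∑ j, (pd j (w i) x) ^ 2) cube :=
    hcq.continuousOn.integrableOn_compact isCompact_Icc
  simp only [hpt]
  rw [integral_sub (integrable_finsetSum _ fun j _ => hint j) hintq,
    integral_finsetSum _ (fun j _ => hint j)]
  have h0 : ∑ j, ∫ x in cube, pd j (F j) x = 0 :=
    Finset.sum_eq_zero fun j _ => integral_pd_eq_zero (hFc j) (hFp j) j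
  rw [h0]
  have hnn : 0 ≤ ∫ x in cube, ν * ∑ i, ∑ j, (pd j (w i) x) ^ 2 :=
    integral_nonneg fun x => mul_nonneg hν
      (Finset.sum_nonneg fun i _ => Finset.sum_nonneg fun j _ => sq_nonneg _)
  linarith

section Dynamics

variable {ν : ℝ} {f : Field} {T : ℝ} {u v : Field} {p q : ℝ → (Fin 3 → ℝ) → ℝ}

lemma contDiff_comp {g : (Fin 3 → ℝ) → (Fin 3 → ℝ)} {n : WithTop ℕ∞} (hg : ContDiff ℝ n g)
    (i : Fin 3) : ContDiff ℝ n (fun y => g y i) :=
  contDiff_pi.1 hg i

lemma periodic_comp {g : (Fin 3 → ℝ) → (Fin 3 → ℝ)} (hg : SpacePeriodic g)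
    (i : Fin 3) : SpacePeriodic (fun y => g y i) := by
  intro x k
  exact congrFun (hg x k) i

lemma deriv_energy_le (hν : 0 < ν) (hu : IsClassicalSolution ν f T u p)
    (hv : IsClassicalSolution ν f T v q) {B : ℝ}
    (hB : ∀ t ∈ Set.Icc 0 T, ∀ x ∈ cube, ∀ i j, |pd j (fun y => v t y i) x| ≤ B)
    {t : ℝ} (ht : t ∈ Set.Icc 0 T) :
    ∫ x in cube, ∑ i, 2 * ((u t x i - v t x i) *
        (derivWithin (fun s => u s x i) (Set.Icc 0 T) t -
          derivWithin (fun s => v s x i) (Set.Icc 0 T) t)) ≤
      6 * B * ∫ x in cube, ∑ i, (u t x i - v t x i) ^ 2 := by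
  set w : Fin 3 → (Fin 3 → ℝ) → ℝ := fun i y => u t y i - v t y i with hw
  set π : (Fin 3 → ℝ) → ℝ := fun y => p t y - q t y with hπ
  have cu : ∀ i, ContDiff ℝ 2 (fun y => u t y i) := fun i => contDiff_comp (hu.space_u t ht) i
  have cv : ∀ i, ContDiff ℝ 2 (fun y => v t y i) := fun i => contDiff_comp (hv.space_u t ht) i
  have cw : ∀ i, ContDiff ℝ 2 (w i) := fun i => (cu i).sub (cv i)
  have cp := hu.space_p t ht
  have cq := hv.space_p t ht
  have cπ : ContDiff ℝ 1 π := cp.sub cq
  have pu : ∀ i, SpacePeriodic (fun y => u t y i) := fun i => periodic_comp (hu.periodic_u t ht) i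
  have pv : ∀ i, SpacePeriodic (fun y => v t y i) := fun i => periodic_comp (hv.periodic_u t ht) i
  have pw : ∀ i, SpacePeriodic (w i) := by
    intro i x k
    simp only [hw]
    rw [show u t (fun l => x l + (k l : ℝ)) i = u t x i from pu i x k,
      show v t (fun l => x l + (k l : ℝ)) i = v t x i from pv i x k]
  have pπ : SpacePeriodic π := by
    intro x k
    simp only [hπ]
    rw [hu.periodic_p t ht x k, hv.periodic_p t ht x k]
  have d2 : ∀ {g : (Fin 3 → ℝ) → ℝ}, ContDiff ℝ 2 g → ∀ x, DifferentiableAt ℝ g x :=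
    fun hg x => hg.differentiable (by norm_num) x
  have d1 : ∀ {g : (Fin 3 → ℝ) → ℝ}, ContDiff ℝ 1 g → ∀ x, DifferentiableAt ℝ g x :=
    fun hg x => hg.differentiable (by norm_num) x
  have hpw : ∀ i j x, pd j (w i) x = pd j (fun y => u t y i) x - pd j (fun y => v t y i) x :=
    fun i j x => pd_sub (d2 (cu i) x) (d2 (cv i) x) j
  have hpw' : ∀ i j, pd j (w i) = fun x => pd j (fun y => u t y i) x - pd j (fun y => v t y i) x :=
    fun i j => funext (hpw i j)
  have hppw : ∀ i j x, pd j (pd j (w i)) x =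
      pd j (pd j (fun y => u t y i)) x - pd j (pd j (fun y => v t y i)) x := by
    intro i j x
    rw [hpw' i j]
    exact pd_sub (d1 (contDiff_pd (cu i) j) x) (d1 (contDiff_pd (cv i) j) x) j
  have hpπ : ∀ i x, pd i π x = pd i (p t) x - pd i (q t) x :=
    fun i x => pd_sub (d1 cp x) (d1 cq x) i
  have dw : ∀ x, ∑ j, pd j (w j) x = 0 := by
    intro x
    simp only [hpw, Finset.sum_sub_distrib]
    rw [hu.div_free t ht x, hv.div_free t ht x, sub_zero]
  have hstat := energy_static hν.le cu cw cπ pu pw pπ (hu.div_free t ht) dw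
  -- pointwise identity
  have hpt : ∀ x, ∑ i, 2 * ((u t x i - v t x i) *
        (derivWithin (fun s => u s x i) (Set.Icc 0 T) t -
          derivWithin (fun s => v s x i) (Set.Icc 0 T) t)) =
      2 * (∑ i, w i x * (-(∑ j, u t x j * pd j (w i) x) - pd i π x
        + ν * ∑ j, pd j (pd j (w i)) x))
      + 2 * (-(∑ i, ∑ j, w i x * w j x * pd j (fun y => v t y i) x)) := by
    intro x
    have m1 := fun i => hu.momentum t ht x i
    have m2 := fun i => hv.momentum t ht x i
    have m3 : ∀ i, derivWithin (fun s => u s x i) (Set.Icc 0 T) t -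
          derivWithin (fun s => v s x i) (Set.Icc 0 T) t =
        -(∑ j, u t x j * pd j (w i) x) - (∑ j, w j x * pd j (fun y => v t y i) x) - pd i π x
        + ν * ∑ j, pd j (pd j (w i)) x := by
      intro i
      have a1 := m1 i
      have a2 := m2 i
      have hwj : ∀ j, w j x = u t x j - v t x j := fun _ => rfl
      simp only [hppw, hpw, hpπ, hwj]
      simp only [Fin.sum_univ_three] at a1 a2 ⊢
      linear_combination a1 - a2
    simp only [m3]
    simp only [Fin.sum_univ_three]
    simp only [hw]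
    ring
  have hcw : ∀ i, Continuous (w i) := fun i => (cw i).continuous
  have hcv : ∀ i j, Continuous (pd j (fun y => v t y i)) :=
    fun i j => (contDiff_pd (cv i) j).continuous
  have hc1 : Continuous (fun x => ∑ i, w i x * (-(∑ j, u t x j * pd j (w i) x) - pd i π x
        + ν * ∑ j, pd j (pd j (w i)) x)) := by
    refine continuous_finsetSum _ fun i _ => (hcw i).mul (((Continuous.neg
      (continuous_finsetSum _ fun j _ => (cu j).continuous.mul
        (contDiff_pd (cw i) j).continuous)).sub (continuous_pd cπ i)).add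
        (continuous_const.mul (continuous_finsetSum _ fun j _ => ?_)))
    exact continuous_pd (contDiff_pd (cw i) j) j
  have hc2 : Continuous (fun x => ∑ i, ∑ j, w i x * w j x * pd j (fun y => v t y i) x) :=
    continuous_finsetSum _ fun i _ => continuous_finsetSum _ fun j _ =>
      ((hcw i).mul (hcw j)).mul (hcv i j)
  have hc3 : Continuous (fun x => ∑ i, (w i x) ^ 2) :=
    continuous_finsetSum _ fun i _ => (hcw i).pow 2
  have hI : ∀ {g : (Fin 3 → ℝ) → ℝ}, Continuous g → IntegrableOn g cube :=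
    fun hg => hg.continuousOn.integrableOn_compact isCompact_Icc
  have i1 : IntegrableOn (fun x => 2 * (∑ i, w i x * (-(∑ j, u t x j * pd j (w i) x) - pd i π x
        + ν * ∑ j, pd j (pd j (w i)) x))) cube := hI (continuous_const.mul hc1)
  have i2 : IntegrableOn
      (fun x => 2 * (-(∑ i, ∑ j, w i x * w j x * pd j (fun y => v t y i) x))) cube :=
    hI (continuous_const.mul hc2.neg)
  have i3 : IntegrableOn (fun x => 6 * B * ∑ i, (w i x) ^ 2) cube :=
    hI (continuous_const.mul hc3)
  simp only [hpt]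
  rw [integral_add i1 i2, integral_const_mul]
  have hb : ∫ x in cube, 2 * (-(∑ i, ∑ j, w i x * w j x * pd j (fun y => v t y i) x)) ≤
      ∫ x in cube, 6 * B * ∑ i, (w i x) ^ 2 := by
    refine setIntegral_mono_on i2 i3 measurableSet_Icc ?_
    intro x hx
    have hterm : ∀ i j, -(w i x * w j x * pd j (fun y => v t y i) x) ≤
        ((w i x) ^ 2 + (w j x) ^ 2) / 2 * B := by
      intro i j
      have h1 := hB t ht x hx i j
      calc -(w i x * w j x * pd j (fun y => v t y i) x)
          ≤ |w i x * w j x * pd j (fun y => v t y i) x| := neg_le_abs _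
        _ = |w i x * w j x| * |pd j (fun y => v t y i) x| := abs_mul _ _
        _ ≤ ((w i x) ^ 2 + (w j x) ^ 2) / 2 * B := by
            refine mul_le_mul ?_ h1 (abs_nonneg _) (by positivity)
            rw [abs_le]
            constructor <;> nlinarith [sq_nonneg (w i x + w j x), sq_nonneg (w i x - w j x)]
    have t1 := fun i => hterm i
    simp only [Fin.sum_univ_three]
    linarith [hterm 0 0, hterm 0 1, hterm 0 2, hterm 1 0, hterm 1 1, hterm 1 2, hterm 2 0,
      hterm 2 1, hterm 2 2]
  have hb' : ∫ x in cube, 6 * B * ∑ i, (w i x) ^ 2 =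
      6 * B * ∫ x in cube, ∑ i, (u t x i - v t x i) ^ 2 := integral_const_mul _ _
  rw [hb'] at hb
  have hstat' := hstat
  linarith

/-- Uniqueness of classical solutions. -/
theorem classical_unique (hν : 0 < ν) (hT : 0 < T) (hu : IsClassicalSolution ν f T u p)
    (hv : IsClassicalSolution ν f T v q) :
    ∀ t ∈ Set.Icc 0 T, ∀ x, v t x = u t x ∧ q t x = p t x := by
  classical
  have hK : IsCompact (Set.Icc 0 T ×ˢ cube) := isCompact_Icc.prod isCompact_Icc
  have hsub : Set.Icc 0 T ×ˢ cube ⊆ Set.Icc 0 T ×ˢ (Set.univ : Set (Fin 3 → ℝ)) :=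
    Set.prod_mono le_rfl (Set.subset_univ _)
  -- bound of the gradient of v
  have hB : ∃ B : ℝ, ∀ t ∈ Set.Icc 0 T, ∀ x ∈ cube, ∀ i j, |pd j (fun y => v t y i) x| ≤ B := by
    have h1 : ∀ i j, ∃ B : ℝ, ∀ z ∈ Set.Icc 0 T ×ˢ cube,
        ‖pd j (fun y => v z.1 y i) z.2‖ ≤ B := fun i j =>
      hK.exists_bound_of_continuousOn ((hv.cont_ux i j).mono hsub)
    choose B hB using h1
    refine ⟨∑ i, ∑ j, |B i j|, ?_⟩
    intro t ht x hx i j
    have h2 := hB i j (t, x) ⟨ht, hx⟩
    have h3 : |B i j| ≤ ∑ j', |B i j'| :=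
      Finset.single_le_sum (f := fun j' => |B i j'|) (fun _ _ => abs_nonneg _)
        (Finset.mem_univ j)
    have h4 : ∑ j', |B i j'| ≤ ∑ i', ∑ j', |B i' j'| :=
      Finset.single_le_sum (f := fun i' => ∑ j', |B i' j'|)
        (fun _ _ => Finset.sum_nonneg fun _ _ => abs_nonneg _) (Finset.mem_univ i)
    simp only [Real.norm_eq_abs] at h2
    exact (h2.trans (le_abs_self _)).trans (h3.trans h4)
  obtain ⟨B, hB⟩ := hB
  -- the energy
  set E : ℝ → ℝ := fun t => ∫ x in cube, ∑ i, (u t x i - v t x i) ^ 2 with hE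
  have hcu : ∀ i, ContinuousOn (fun z : ℝ × (Fin 3 → ℝ) => u z.1 z.2 i) (Set.Icc 0 T ×ˢ cube) :=
    fun i => (continuousOn_pi.1 hu.cont_u i).mono hsub
  have hcv : ∀ i, ContinuousOn (fun z : ℝ × (Fin 3 → ℝ) => v z.1 z.2 i) (Set.Icc 0 T ×ˢ cube) :=
    fun i => (continuousOn_pi.1 hv.cont_u i).mono hsub
  have hdu : ∀ i, ∀ t ∈ Set.Icc 0 T, ∀ x,
      DifferentiableWithinAt ℝ (fun s => u s x i) (Set.Icc 0 T) t :=
    fun i t ht x => differentiableWithinAt_pi.1 (hu.diff_t t ht x) i
  have hdv : ∀ i, ∀ t ∈ Set.Icc 0 T, ∀ x,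
      DifferentiableWithinAt ℝ (fun s => v s x i) (Set.Icc 0 T) t :=
    fun i t ht x => differentiableWithinAt_pi.1 (hv.diff_t t ht x) i
  have hcdu : ∀ i, ContinuousOn (fun z : ℝ × (Fin 3 → ℝ) =>
      derivWithin (fun s => u s z.2 i) (Set.Icc 0 T) z.1) (Set.Icc 0 T ×ˢ cube) := by
    intro i
    have h1 := (continuousOn_pi.1 hu.cont_ut i).mono hsub
    refine h1.congr ?_
    intro z hz
    have := derivWithin_pi (φ := fun s => u s z.2) (s := Set.Icc 0 T) (x := z.1)
      (fun i => hdu i z.1 hz.1 z.2)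
    simp only [this]
  have hcdv : ∀ i, ContinuousOn (fun z : ℝ × (Fin 3 → ℝ) =>
      derivWithin (fun s => v s z.2 i) (Set.Icc 0 T) z.1) (Set.Icc 0 T ×ˢ cube) := by
    intro i
    have h1 := (continuousOn_pi.1 hv.cont_ut i).mono hsub
    refine h1.congr ?_
    intro z hz
    have := derivWithin_pi (φ := fun s => v s z.2) (s := Set.Icc 0 T) (x := z.1)
      (fun i => hdv i z.1 hz.1 z.2)
    simp only [this]
  have hcF : ContinuousOn (fun z : ℝ × (Fin 3 → ℝ) => ∑ i, (u z.1 z.2 i - v z.1 z.2 i) ^ 2)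
      (Set.Icc 0 T ×ˢ cube) :=
    continuousOn_finsetSum _ fun i _ => ((hcu i).sub (hcv i)).pow 2
  have hcF' : ContinuousOn (fun z : ℝ × (Fin 3 → ℝ) => ∑ i, 2 * ((u z.1 z.2 i - v z.1 z.2 i) *
        (derivWithin (fun s => u s z.2 i) (Set.Icc 0 T) z.1 -
          derivWithin (fun s => v s z.2 i) (Set.Icc 0 T) z.1))) (Set.Icc 0 T ×ˢ cube) :=
    continuousOn_finsetSum _ fun i _ => continuousOn_const.mul
      (((hcu i).sub (hcv i)).mul ((hcdu i).sub (hcdv i)))
  obtain ⟨C0, hC0⟩ := hK.exists_bound_of_continuousOn hcF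
  obtain ⟨C1, hC1⟩ := hK.exists_bound_of_continuousOn hcF'
  have hslice : ∀ {g : ℝ × (Fin 3 → ℝ) → ℝ}, ContinuousOn g (Set.Icc 0 T ×ˢ cube) →
      ∀ t ∈ Set.Icc 0 T, ContinuousOn (fun x => g (t, x)) cube := by
    intro g hg t ht
    exact hg.comp (by fun_prop) (fun x hx => ⟨ht, hx⟩)
  have hvolfin : IsFiniteMeasure (volume.restrict cube) := by
    constructor
    rw [Measure.restrict_apply_univ]
    exact isCompact_cube.measure_lt_top
  have hEcont : ContinuousOn E (Set.Icc 0 T) := by
    intro t ht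
    refine tendsto_integral_filter_of_dominated_convergence (fun _ => C0) ?_ ?_
      (integrable_const _) ?_
    · filter_upwards [self_mem_nhdsWithin] with s hs
      exact (hslice hcF s hs).aestronglyMeasurable measurableSet_Icc
    · filter_upwards [self_mem_nhdsWithin] with s hs
      filter_upwards [ae_restrict_mem measurableSet_Icc] with x hx
      exact hC0 (s, x) ⟨hs, hx⟩
    · filter_upwards [ae_restrict_mem measurableSet_Icc] with x hx
      have h1 : ContinuousWithinAt (fun s : ℝ => (s, x)) (Set.Icc 0 T) t :=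
        (Continuous.prodMk_left x).continuousWithinAt
      have h2 : ContinuousWithinAt (fun z : ℝ × (Fin 3 → ℝ) =>
          ∑ i, (u z.1 z.2 i - v z.1 z.2 i) ^ 2) (Set.Icc 0 T ×ˢ cube) (t, x) :=
        hcF (t, x) ⟨ht, hx⟩
      exact h2.comp (f := fun s : ℝ => (s, x)) h1 (fun s hs => ⟨hs, hx⟩)
  have hEderiv : ∀ t ∈ Set.Ioo 0 T, HasDerivAt E (∫ x in cube, ∑ i, 2 * ((u t x i - v t x i) *
        (derivWithin (fun s => u s x i) (Set.Icc 0 T) t -
          derivWithin (fun s => v s x i) (Set.Icc 0 T) t))) t := by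
    intro t ht
    have ht' : t ∈ Set.Icc 0 T := Set.Ioo_subset_Icc_self ht
    refine (hasDerivAt_integral_of_dominated_loc_of_deriv_le (s := Set.Ioo 0 T)
      (bound := fun _ => C1)
      (F := fun s x => ∑ i, (u s x i - v s x i) ^ 2)
      (F' := fun s x => ∑ i, 2 * ((u s x i - v s x i) *
        (derivWithin (fun s => u s x i) (Set.Icc 0 T) s -
          derivWithin (fun s => v s x i) (Set.Icc 0 T) s)))
      (Ioo_mem_nhds ht.1 ht.2) ?_ ?_ ?_ ?_ (integrable_const _) ?_).2
    · filter_upwards [Ioo_mem_nhds ht.1 ht.2] with s hs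
      exact (hslice hcF s (Set.Ioo_subset_Icc_self hs)).aestronglyMeasurable measurableSet_Icc
    · exact (hslice hcF t ht').integrableOn_compact isCompact_Icc
    · exact (hslice hcF' t ht').aestronglyMeasurable measurableSet_Icc
    · filter_upwards [ae_restrict_mem measurableSet_Icc] with x hx
      intro s hs
      exact hC1 (s, x) ⟨Set.Ioo_subset_Icc_self hs, hx⟩
    · filter_upwards [ae_restrict_mem measurableSet_Icc] with x hx
      intro s hs
      have hs' : s ∈ Set.Icc 0 T := Set.Ioo_subset_Icc_self hs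
      have hn : Set.Icc 0 T ∈ 𝓝 s := Icc_mem_nhds hs.1 hs.2
      refine HasDerivAt.fun_sum fun i _ => ?_
      have h1 := ((hdu i s hs' x).hasDerivWithinAt.hasDerivAt hn).sub
        ((hdv i s hs' x).hasDerivWithinAt.hasDerivAt hn)
      have h2 := h1.pow 2
      refine h2.congr_deriv ?_
      simp
      ring
  have hE0 : E 0 = 0 := by
    simp only [hE]
    have : ∀ x, ∑ i, (u 0 x i - v 0 x i) ^ 2 = 0 := by
      intro x
      simp [hu.initial x, hv.initial x]
    simp [this]
  have hEnn : ∀ t, 0 ≤ E t := fun t =>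
    integral_nonneg fun x => Finset.sum_nonneg fun i _ => sq_nonneg _
  have hEz : ∀ t ∈ Set.Icc 0 T, E t = 0 := by
    intro t ht
    have hanti : AntitoneOn (fun s => E s * Real.exp (-(6 * B) * s)) (Set.Icc 0 T) := by
      refine antitoneOn_of_deriv_nonpos (convex_Icc 0 T)
        (hEcont.mul (by fun_prop)) ?_ ?_
      · rw [interior_Icc]
        intro s hs
        exact ((hEderiv s hs).differentiableAt.mul (by fun_prop)).differentiableWithinAt
      · rw [interior_Icc]
        intro s hs
        have h1 : HasDerivAt (fun s : ℝ => Real.exp (-(6 * B) * s))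
            (Real.exp (-(6 * B) * s) * (-(6 * B))) s := by
          have := ((hasDerivAt_id s).const_mul (-(6 * B))).exp
          simpa using this
        have h2 := (hEderiv s hs).mul h1
        rw [show (fun s => E s * Real.exp (-(6 * B) * s)) =
          E * fun s => Real.exp (-(6 * B) * s) from rfl, h2.deriv]
        have h3 := deriv_energy_le hν hu hv hB (Set.Ioo_subset_Icc_self hs)
        have h4 : 0 < Real.exp (-(6 * B) * s) := Real.exp_pos _
        have h5 : (∫ x in cube, ∑ i, 2 * ((u s x i - v s x i) *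
          (derivWithin (fun s => u s x i) (Set.Icc 0 T) s -
          derivWithin (fun s => v s x i) (Set.Icc 0 T) s))) ≤ 6 * B * E s := h3
        nlinarith
    have h1 := hanti (Set.left_mem_Icc.2 hT.le) ht ht.1
    simp only [hE0, zero_mul] at h1
    have h2 : 0 < Real.exp (-(6 * B) * t) := Real.exp_pos _
    have h3 : E t ≤ 0 := by
      by_contra hcon
      push Not at hcon
      have := mul_pos hcon h2
      linarith
    exact le_antisymm h3 (hEnn t)
  -- from zero energy to equality
  have hcube : ∀ t ∈ Set.Icc 0 T, ∀ x ∈ cube, v t x = u t x := by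
    intro t ht
    have hcont := hslice hcF t ht
    have h1 := (integral_eq_zero_iff_of_nonneg (μ := volume.restrict cube)
      (f := fun x => ∑ i, (u t x i - v t x i) ^ 2)
      (fun x => Finset.sum_nonneg fun i _ => sq_nonneg _)
      (hcont.integrableOn_compact isCompact_Icc)).1 (hEz t ht)
    have h2 : Set.EqOn (fun x => ∑ i, (u t x i - v t x i) ^ 2) 0 cube := by
      refine Measure.eqOn_of_ae_eq h1 hcont continuousOn_const ?_
      have hne : (interior cube).Nonempty := by
        refine ⟨fun _ => 1/2, ?_⟩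
        rw [show cube = Set.pi Set.univ (fun _ : Fin 3 => Set.Icc (0:ℝ) 1) from
          (Set.pi_univ_Icc _ _).symm, interior_pi_set Set.finite_univ]
        intro i _
        rw [interior_Icc]
        constructor <;> norm_num
      have hcc : Convex ℝ cube := convex_Icc _ _
      rw [hcc.closure_interior_eq_closure_of_nonempty_interior hne]
      exact subset_closure
    intro x hx
    have h3 := h2 hx
    simp only [Pi.zero_apply] at h3
    funext i
    have h4 := (Finset.sum_eq_zero_iff_of_nonneg (fun i _ => sq_nonneg (u t x i - v t x i))).1 h3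
      i (Finset.mem_univ i)
    have h5 : u t x i - v t x i = 0 := by
      exact pow_eq_zero_iff (two_ne_zero) |>.1 h4
    linarith
  have hall : ∀ t ∈ Set.Icc 0 T, ∀ x, v t x = u t x := by
    intro t ht x
    have h1 : x = fun i => (fun i => Int.fract (x i)) i + ((⌊x i⌋ : ℤ) : ℝ) := by
      funext i
      simp [Int.fract_add_floor]
    rw [h1, hu.periodic_u t ht (fun i => Int.fract (x i)) (fun i => ⌊x i⌋),
      hv.periodic_u t ht (fun i => Int.fract (x i)) (fun i => ⌊x i⌋)]
    refine hcube t ht _ ⟨fun i => Int.fract_nonneg _, fun i => (Int.fract_lt_one _).le⟩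
  intro t ht x
  refine ⟨hall t ht x, ?_⟩
  -- the pressure
  have hut : v t = u t := funext (hall t ht)
  have hgrad : ∀ y i, pd i (p t) y = pd i (q t) y := by
    intro y i
    have m1 := hu.momentum t ht y i
    have m2 := hv.momentum t ht y i
    have h1 : derivWithin (fun s => v s y i) (Set.Icc 0 T) t =
        derivWithin (fun s => u s y i) (Set.Icc 0 T) t :=
      derivWithin_congr (fun s hs => by rw [hall s hs y]) (by rw [hall t ht y])
    rw [h1, hut] at m2
    linarith
  have cp := hu.space_p t ht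
  have cq := hv.space_p t ht
  have dp : Differentiable ℝ (p t) := cp.differentiable (by norm_num)
  have dq : Differentiable ℝ (q t) := cq.differentiable (by norm_num)
  have hfd : ∀ y, fderiv ℝ (fun y => q t y - p t y) y = 0 := by
    intro y
    have hsum : fderiv ℝ (fun y => q t y - p t y) y = fderiv ℝ (q t) y - fderiv ℝ (p t) y :=
      fderiv_sub (dq y) (dp y)
    rw [hsum]
    ext z
    have hz : z = ∑ j, z j • (Pi.single j (1:ℝ) : Fin 3 → ℝ) := by
      funext k
      simp [Finset.sum_apply, Pi.single_apply]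
    rw [hz]
    simp only [map_sum, map_smul]
    refine Finset.sum_congr rfl ?_
    intro j _
    have := hgrad y j
    rw [pd_eq_fderiv (dp y) j, pd_eq_fderiv (dq y) j] at this
    simp [this]
  have hconst : ∀ y, q t y - p t y = q t 0 - p t 0 := fun y =>
    is_const_of_fderiv_eq_zero (𝕜 := ℝ) (dq.sub dp) hfd y 0
  have hint1 := hu.mean_zero t ht
  have hint2 := hv.mean_zero t ht
  have h6 : ∫ y in cube, (q t y - p t y) = 0 := by
    rw [integral_sub (cq.continuous.continuousOn.integrableOn_compact isCompact_Icc)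
      (cp.continuous.continuousOn.integrableOn_compact isCompact_Icc), hint1, hint2, sub_zero]
  simp only [hconst] at h6
  rw [setIntegral_const] at h6
  have hvol : volume.real cube = 1 := by
    rw [Measure.real, Real.volume_Icc_pi]
    simp
  rw [hvol, one_smul] at h6
  have := hconst x
  linarith

end Dynamics

end Vale.Agent.P113
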