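import Vale.Agent.P113.Force
import Vale.Agent.P113.Uniq

/-! # The explicit solution and its trajectories -/

open scoped ContDiff

namespace Vale.Agent.P113

/-! ### The velocity field solves the equations -/

theorem pd_const3 (j : Fin 3) (c : ℝ) : pd j (fun _ : Fin 3 → ℝ => c) = fun _ => 0 := by
  funext y
  unfold pd
  simp

theorem pd_first {φ : ℝ → ℝ} (hφ : ContDiff ℝ ∞ φ) (c : ℝ) :
    pd 0 (fun y : Fin 3 → ℝ => c * φ (y 0)) = fun y => c * deriv φ (y 0) := by
  funext y
  unfold pd
  have h1 : (fun s : ℝ => c * φ (Function.update y 0 s 0)) = fun s => c * φ s := by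
    funext s
    simp
  rw [h1]
  exact ((hasDerivAt_of_smooth hφ (y 0)).const_mul c).deriv

theorem pd_other (φ : ℝ → ℝ) (c : ℝ) {j : Fin 3} (hj : j ≠ 0) :
    pd j (fun y : Fin 3 → ℝ => c * φ (y 0)) = fun _ => 0 := by
  funext y
  unfold pd
  have h1 : (fun s : ℝ => c * φ (Function.update y j s 0)) = fun _ => c * φ (y 0) := by
    funext s
    rw [Function.update_of_ne hj.symm]
  rw [h1]
  simp

theorem pd_velocity (D : Desc) (w : List ℕ) (t : ℝ) (i j : Fin 3) :
    pd j (fun y => velocity D w t y i) =
      fun y => if i = 2 ∧ j = 0 then aT t * deriv (hM D) (y 0) else 0 := by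
  fin_cases i
  · have h1 : (fun y => velocity D w t y 0) = fun _ => push w * bT t := by
      funext y
      simp [velocity]
    show pd j (fun y => velocity D w t y 0) = _
    rw [h1, pd_const3]
    funext y
    rw [if_neg]
    rintro ⟨h, -⟩
    exact absurd h (by decide)
  · have h1 : (fun y => velocity D w t y 1) = fun _ => 0 := by
      funext y
      simp [velocity]
    show pd j (fun y => velocity D w t y 1) = _
    rw [h1, pd_const3]
    funext y
    rw [if_neg]
    rintro ⟨h, -⟩
    exact absurd h (by decide)
  · have h1 : (fun y => velocity D w t y 2) = fun y => aT t * hM D (y 0) := by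
      funext y
      simp [velocity]
    show pd j (fun y => velocity D w t y 2) = _
    rw [h1]
    by_cases hj : j = 0
    · subst hj
      rw [pd_first (hM_contDiff D)]
      funext y
      rw [if_pos ⟨rfl, rfl⟩]
    · rw [pd_other _ _ hj]
      funext y
      rw [if_neg (fun h => hj h.2)]

theorem pd_pd_velocity (D : Desc) (w : List ℕ) (t : ℝ) (i j k : Fin 3) :
    pd k (pd j (fun y => velocity D w t y i)) =
      fun y => if i = 2 ∧ j = 0 ∧ k = 0 then aT t * deriv (deriv (hM D)) (y 0) else 0 := by
  rw [pd_velocity]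
  by_cases h : i = 2 ∧ j = 0
  · have h1 : (fun y : Fin 3 → ℝ => if i = 2 ∧ j = 0 then aT t * deriv (hM D) (y 0) else 0) =
        fun y => aT t * deriv (hM D) (y 0) := by
      funext y
      rw [if_pos h]
    rw [h1]
    by_cases hk : k = 0
    · subst hk
      rw [pd_first (contDiff_infty_iff_deriv.1 (hM_contDiff D)).2]
      funext y
      rw [if_pos ⟨h.1, h.2, rfl⟩]
    · rw [pd_other _ _ hk]
      funext y
      rw [if_neg (fun h' => hk h'.2.2)]
  · have h1 : (fun y : Fin 3 → ℝ => if i = 2 ∧ j = 0 then aT t * deriv (hM D) (y 0) else 0) =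
        fun _ => 0 := by
      funext y
      rw [if_neg h]
    rw [h1, pd_const3]
    funext y
    rw [if_neg (fun h' => h ⟨h'.1, h'.2.1⟩)]

/-- The time derivative of the velocity. -/
noncomputable def velocityT (D : Desc) : List ℕ → ℝ → (Fin 3 → ℝ) → (Fin 3 → ℝ) :=
  fun w t x => ![push w * deriv bT t, 0, deriv aT t * hM D (x 0)]

theorem hasDerivAt_velocity (D : Desc) (w : List ℕ) (t : ℝ) (x : Fin 3 → ℝ) :
    HasDerivAt (fun s => velocity D w s x) (velocityT D w t x) t := by
  rw [hasDerivAt_pi]
  intro i
  fin_cases i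
  · exact (hasDerivAt_of_smooth bT_contDiff t).const_mul (push w)
  · exact hasDerivAt_const t (0 : ℝ)
  · exact (hasDerivAt_of_smooth aT_contDiff t).mul_const (hM D (x 0))

theorem continuous_velocityT (D : Desc) (w : List ℕ) :
    Continuous fun q : ℝ × (Fin 3 → ℝ) => velocityT D w q.1 q.2 := by
  refine continuous_pi fun i => ?_
  have hb : Continuous (deriv bT) := (contDiff_infty_iff_deriv.1 bT_contDiff).2.continuous
  have ha : Continuous (deriv aT) := (contDiff_infty_iff_deriv.1 aT_contDiff).2.continuous
  fin_cases i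
  · exact continuous_const.mul (hb.comp continuous_fst)
  · exact continuous_const
  · exact (ha.comp continuous_fst).mul ((hM_contDiff D).continuous.comp
      ((continuous_apply (0 : Fin 3)).comp continuous_snd))

theorem derivWithin_velocity (D : Desc) (w : List ℕ) {T : ℝ} (hT : 0 < T) {t : ℝ}
    (ht : t ∈ Set.Icc 0 T) (x : Fin 3 → ℝ) :
    derivWithin (fun s => velocity D w s x) (Set.Icc 0 T) t = velocityT D w t x :=
  (hasDerivAt_velocity D w t x).hasDerivWithinAt.derivWithin (uniqueDiffOn_Icc hT t ht)

theorem derivWithin_velocity_apply (D : Desc) (w : List ℕ) {T : ℝ} (hT : 0 < T) {t : ℝ}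
    (ht : t ∈ Set.Icc 0 T) (x : Fin 3 → ℝ) (i : Fin 3) :
    derivWithin (fun s => velocity D w s x i) (Set.Icc 0 T) t = velocityT D w t x i :=
  ((hasDerivAt_pi.1 (hasDerivAt_velocity D w t x)) i).hasDerivWithinAt.derivWithin
    (uniqueDiffOn_Icc hT t ht)

/-- The explicit velocity field with zero pressure is a classical solution. -/
theorem isClassicalSolution_velocity (ν : ℝ) (D : Desc) (w : List ℕ) {T : ℝ} (hT : 0 < T) :
    IsClassicalSolution ν (force ν D w) T (velocity D w) (fun _ _ => 0) where
  periodic_u := fun t _ => (smooth_velocity D w).1 t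
  periodic_p := fun _ _ _ _ => rfl
  cont_u := (smooth_velocity D w).2.continuous.continuousOn
  diff_t := fun t _ x => (hasDerivAt_velocity D w t x).differentiableAt.differentiableWithinAt
  cont_ut := by
    refine (continuous_velocityT D w).continuousOn.congr fun q hq => ?_
    exact derivWithin_velocity D w hT hq.1 q.2
  space_u := fun t _ => by
    have h1 : ContDiff ℝ ∞ (velocity D w t) :=
      (smooth_velocity D w).2.comp (contDiff_const.prodMk contDiff_id)
    exact_mod_cast contDiff_infty.1 h1 2
  cont_ux := fun i j => by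
    refine Continuous.continuousOn ?_
    simp only [pd_velocity]
    split_ifs
    · exact (aT_continuous.comp continuous_fst).mul
        ((contDiff_infty_iff_deriv.1 (hM_contDiff D)).2.continuous.comp
          ((continuous_apply (0 : Fin 3)).comp continuous_snd))
    · exact continuous_const
  cont_uxx := fun i j k => by
    refine Continuous.continuousOn ?_
    simp only [pd_pd_velocity]
    split_ifs
    · exact (aT_continuous.comp continuous_fst).mul
        ((contDiff_infty_iff_deriv.1 (contDiff_infty_iff_deriv.1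
          (hM_contDiff D)).2).2.continuous.comp
          ((continuous_apply (0 : Fin 3)).comp continuous_snd))
    · exact continuous_const
  cont_p := continuousOn_const
  space_p := fun _ _ => contDiff_const
  cont_px := fun j => by
    simp only [pd_const3]
    exact continuousOn_const
  momentum := fun t ht x i => by
    rw [derivWithin_velocity_apply D w hT ht x i]
    simp only [pd_pd_velocity]
    simp only [pd_velocity, pd_const3, Fin.sum_univ_three]
    have h2 : iteratedDeriv 2 (hM D) = deriv (deriv (hM D)) := by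
      rw [iteratedDeriv_succ, iteratedDeriv_one]
    have hab := aT_mul_bT ht.1
    fin_cases i
    · simp [velocityT, force]
    · simp [velocityT, force]
    · simp only [velocityT, force, velocity, h2]
      simp
      linear_combination (push w * deriv (hM D) (x 0)) * hab
  div_free := fun t _ x => by
    simp only [pd_velocity, Fin.sum_univ_three]
    simp
  initial := fun x => by
    have h1 : bT 0 = 0 := bump_of_nonpos (by norm_num)
    have h2 : aT 0 = 0 := aT_of_mem le_rfl (by norm_num)
    funext i
    fin_cases i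
    · simp [velocity, h1]
    · simp [velocity]
    · simp [velocity, h2]
  mean_zero := fun t _ => by simp

/-! ### The force at late times -/

theorem deriv_bT_of_ge {t : ℝ} (ht : 1 / 2 ≤ t) : deriv bT t = 0 := by
  have h := iteratedDeriv_bT 1 t
  rw [iteratedDeriv_one] at h
  rw [h, (bump_flat.iteratedDeriv 1).right _ (by linarith), mul_zero]

theorem deriv_aT_periodic (t : ℝ) : deriv aT (t + 1) = deriv aT t := by
  have h : (fun s => aT (s + 1)) = aT := funext aT_periodic
  have h2 := deriv_comp_add_const aT 1 t
  rw [h] at h2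
  exact h2.symm

theorem force_late (ν : ℝ) (D : Desc) (w : List ℕ) {t : ℝ} (ht : 1 / 2 ≤ t) (x : Fin 3 → ℝ) :
    force ν D w t x = ![0, 0,
      deriv aT t * hM D (x 0) + (-ν * aT t) * iteratedDeriv 2 (hM D) (x 0)] := by
  unfold force
  rw [deriv_bT_of_ge ht, mul_zero]

theorem force_indep (ν : ℝ) (D : Desc) (w w' : List ℕ) {t : ℝ} (ht : 1 / 2 ≤ t)
    (x : Fin 3 → ℝ) : force ν D w' t x = force ν D w t x := by
  rw [force_late ν D w ht, force_late ν D w' ht]

theorem force_periodic (ν : ℝ) (D : Desc) (w : List ℕ) {t : ℝ} (ht : 1 / 2 ≤ t)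
    (x : Fin 3 → ℝ) : force ν D w (t + 1) x = force ν D w t x := by
  rw [force_late ν D w ht, force_late ν D w (by linarith : (1 : ℝ) / 2 ≤ t + 1),
    deriv_aT_periodic, aT_periodic]

/-! ### Trajectories -/

theorem push_intB_of_ge (w : List ℕ) {t : ℝ} (ht : 1 / 2 ≤ t) : push w * intB t = pos w := by
  rw [intB_of_ge ht]
  rfl

theorem aT_hM (D : Desc) (w : List ℕ) (k : ℤ) {t : ℝ} (ht : 0 ≤ t) :
    aT t * hM D (push w * intB t + k) = aT t * hM D (pos w) := by
  rw [hM_periodic]
  rcases le_total t (1 / 2) with h | h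
  · rw [aT_of_mem ht h, zero_mul, zero_mul]
  · rw [push_intB_of_ge w h]

/-- A marked trajectory. -/
noncomputable def traj (D : Desc) (w : List ℕ) (t : ℝ) : Fin 3 → ℝ :=
  ![push w * intB t, 0, hM D (pos w) * intA t]

theorem isTrajectory_traj (D : Desc) (w : List ℕ) :
    IsTrajectory (velocity D w) 0 (traj D w) := by
  constructor
  · intro i
    fin_cases i
    · simp [traj, intB_zero]
    · simp [traj]
    · simp [traj, intA_zero]
  · intro t ht
    refine HasDerivAt.hasDerivWithinAt ?_
    rw [hasDerivAt_pi]
    intro i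
    fin_cases i
    · exact (hasDerivAt_intB t).const_mul (push w)
    · exact hasDerivAt_const t (0 : ℝ)
    · have h1 := (hasDerivAt_intA t).const_mul (hM D (pos w))
      have h2 : velocity D w t (traj D w t) 2 = hM D (pos w) * aT t := by
        have h3 := aT_hM D w 0 ht
        simp only [Int.cast_zero, add_zero] at h3
        simp only [velocity, traj]
        simp
        rw [h3]
        ring
      show HasDerivAt (fun s => hM D (pos w) * intA s) (velocity D w t (traj D w t) 2) t
      rw [h2]
      exact h1

theorem const_of_deriv_zero {g : ℝ → ℝ} (hg : ∀ t, 0 ≤ t → HasDerivWithinAt g 0 (Set.Ici 0) t)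
    {t : ℝ} (ht : 0 ≤ t) : g t = g 0 := by
  refine constant_of_has_deriv_right_zero (a := 0) (b := t) (fun s hs => ?_) (fun s hs => ?_) t
    ⟨ht, le_rfl⟩
  · exact ((hg s hs.1).continuousWithinAt).mono Set.Icc_subset_Ici_self
  · exact (hg s hs.1).mono (Set.Ici_subset_Ici.2 hs.1)

/-- The third coordinate along any trajectory starting at the origin of the torus. -/
theorem trajectory_third (D : Desc) (w : List ℕ) {X : ℝ → (Fin 3 → ℝ)}
    (hX : IsTrajectory (velocity D w) 0 X) {t : ℝ} (ht : 0 ≤ t) :
    ((X t 2 : ℝ) : UnitAddCircle) = ((hM D (pos w) * intA t : ℝ) : UnitAddCircle) := by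
  obtain ⟨h0, hd⟩ := hX
  -- integrality of the initial position
  have hint : ∀ i, ∃ m : ℤ, X 0 i = m := by
    intro i
    have h1 := h0 i
    simp only [Pi.zero_apply] at h1
    obtain ⟨m, hm⟩ := (AddCircle.coe_eq_zero_iff (1 : ℝ)).1 h1
    exact ⟨m, by rw [← hm]; simp⟩
  obtain ⟨m0, hm0⟩ := hint 0
  obtain ⟨m2, hm2⟩ := hint 2
  have hcomp : ∀ (i : Fin 3) (s : ℝ), 0 ≤ s →
      HasDerivWithinAt (fun s => X s i) (velocity D w s (X s) i) (Set.Ici 0) s :=
    fun i s hs => (hasDerivWithinAt_pi.1 (hd s hs)) i
  -- first coordinate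
  have hX0 : ∀ s, 0 ≤ s → X s 0 = push w * intB s + m0 := by
    intro s hs
    have h1 := const_of_deriv_zero (g := fun s => X s 0 - push w * intB s) (fun r hr => ?_) hs
    · simp only [intB_zero, mul_zero, sub_zero, hm0] at h1
      linarith
    · have h2 := (hcomp 0 r hr).sub ((hasDerivAt_intB r).const_mul (push w)).hasDerivWithinAt
      have h3 : velocity D w r (X r) 0 = push w * bT r := by simp [velocity]
      rw [h3, sub_self] at h2
      exact h2
  have hX2 : X t 2 = hM D (pos w) * intA t + m2 := by
    have h1 := const_of_deriv_zero (g := fun s => X s 2 - hM D (pos w) * intA s)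
      (fun r hr => ?_) ht
    · simp only [intA_zero, mul_zero, sub_zero, hm2] at h1
      linarith
    · have h2 := (hcomp 2 r hr).sub
        ((hasDerivAt_intA r).const_mul (hM D (pos w))).hasDerivWithinAt
      have h3 : velocity D w r (X r) 2 = hM D (pos w) * aT r := by
        have h4 : velocity D w r (X r) 2 = aT r * hM D (X r 0) := by simp [velocity]
        rw [h4, hX0 r hr, aT_hM D w m0 hr]
        ring
      rw [h3, sub_self] at h2
      exact h2
  rw [hX2]
  have : ((m2 : ℝ) : UnitAddCircle) = 0 := by
    rw [AddCircle.coe_eq_zero_iff]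
    exact ⟨m2, by simp⟩
  rw [AddCircle.coe_add, this, add_zero]

/-- The target set. -/
def target : Set (Fin 3 → UnitAddCircle) := {p | 1 / 4 < ‖p 2‖}

theorem isOpen_target : IsOpen target :=
  isOpen_lt continuous_const (continuous_norm.comp (continuous_apply 2))

/-- The trajectory of the origin visits the target exactly if the machine halts. -/
theorem visits_iff (D : Desc) (w : List ℕ) {X : ℝ → (Fin 3 → ℝ)}
    (hX : IsTrajectory (velocity D w) 0 X) :
    (∃ t, 0 ≤ t ∧ (fun i => ((X t i : ℝ) : UnitAddCircle)) ∈ target) ↔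
      ∃ n, haltedBy ((D, w), n) = true := by
  obtain ⟨hpos, hnn⟩ := hM_pos_iff D w
  rw [← hpos]
  constructor
  · rintro ⟨t, ht, h⟩
    have h1 := trajectory_third _ _ hX ht
    have h2 : 1 / 4 < ‖((X t 2 : ℝ) : UnitAddCircle)‖ := h
    rw [h1] at h2
    by_contra h3
    have h4 : hM D (pos w) = 0 := le_antisymm (not_lt.1 h3) hnn
    rw [h4, zero_mul] at h2
    simp at h2
    linarith
  · intro h
    set c := hM D (pos w) with hc
    -- the third coordinate reaches `1 / 2`
    have hcont : Continuous fun t => c * intA t :=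
      continuous_const.mul (continuous_iff_continuousAt.2 fun t =>
        (hasDerivAt_intA t).continuousAt)
    obtain ⟨n, hn⟩ := exists_nat_gt (1 / 2 / (c * intA 1))
    have hcA : 0 < c * intA 1 := mul_pos h intA_one_pos
    have h1 : 1 / 2 ≤ c * intA n := by
      rw [div_lt_iff₀ hcA] at hn
      rw [intA_nat]
      linarith
    have h2 : (1 / 2 : ℝ) ∈ Set.Icc (c * intA 0) (c * intA n) := by
      rw [intA_zero, mul_zero]
      exact ⟨by norm_num, h1⟩
    obtain ⟨t, ht, hteq⟩ := intermediate_value_Icc (Nat.cast_nonneg n) hcont.continuousOn h2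
    refine ⟨t, ht.1, ?_⟩
    have h3 := trajectory_third _ _ hX ht.1
    show 1 / 4 < ‖((X t 2 : ℝ) : UnitAddCircle)‖
    rw [h3, ← hc]
    simp only at hteq
    rw [hteq, UnitAddCircle.norm_eq]
    have h4 : round (1 / 2 : ℝ) = 1 := by
      rw [round_eq]
      norm_num
    rw [h4]
    norm_num

end Vale.Agent.P113
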