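import Vale.Agent.P113.Comp

/-! # The velocity field, the force and the compiler -/

open scoped ContDiff

namespace Vale.Agent.P113

/-! ### Integrals of the time profiles -/

noncomputable def intB (t : ℝ) : ℝ := ∫ s in (0 : ℝ)..t, bT s
noncomputable def intA (t : ℝ) : ℝ := ∫ s in (0 : ℝ)..t, aT s

theorem bT_continuous : Continuous bT := bT_contDiff.continuous
theorem aT_continuous : Continuous aT := aT_contDiff.continuous

theorem hasDerivAt_intB (t : ℝ) : HasDerivAt intB (bT t) t :=
  (bT_continuous.integral_hasStrictDerivAt 0 t).hasDerivAt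

theorem hasDerivAt_intA (t : ℝ) : HasDerivAt intA (aT t) t :=
  (aT_continuous.integral_hasStrictDerivAt 0 t).hasDerivAt

theorem intB_zero : intB 0 = 0 := by simp [intB]
theorem intA_zero : intA 0 = 0 := by simp [intA]

theorem bT_of_ge {t : ℝ} (h : 1 / 2 ≤ t) : bT t = 0 := bump_of_one_le (by linarith)

theorem aT_of_mem {t : ℝ} (h0 : 0 ≤ t) (h1 : t ≤ 1 / 2) : aT t = 0 := by
  unfold aT per
  have : Int.fract t = t := by
    rw [Int.fract_eq_self]
    constructor <;> linarith
  rw [this]
  exact bump_of_nonpos (by linarith)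

theorem aT_nonneg (t : ℝ) : 0 ≤ aT t := bump_nonneg _

theorem aT_periodic : Function.Periodic aT 1 := by
  intro t
  have := per_add_int (fun s => bump (2 * s - 1)) t 1
  rw [Int.cast_one] at this
  exact this

theorem aT_pos {t : ℝ} (h0 : 1 / 2 < t) (h1 : t < 1) : 0 < aT t := by
  unfold aT per
  have : Int.fract t = t := by
    rw [Int.fract_eq_self]
    constructor <;> linarith
  rw [this]
  exact bump_pos (by linarith) (by linarith)

theorem aT_mul_bT {t : ℝ} (h0 : 0 ≤ t) : aT t * bT t = 0 := by
  rcases le_total t (1 / 2) with h | h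
  · rw [aT_of_mem h0 h, zero_mul]
  · rw [bT_of_ge h, mul_zero]

theorem intB_of_ge {t : ℝ} (h : 1 / 2 ≤ t) : intB t = intB (1 / 2) := by
  unfold intB
  have h1 : ∫ s in (0 : ℝ)..t, bT s = (∫ s in (0 : ℝ)..(1 / 2), bT s) +
      ∫ s in (1 / 2 : ℝ)..t, bT s :=
    (intervalIntegral.integral_add_adjacent_intervals
      (bT_continuous.intervalIntegrable _ _) (bT_continuous.intervalIntegrable _ _)).symm
  have h2 : ∫ s in (1 / 2 : ℝ)..t, bT s = 0 := by
    have h3 : ∫ s in (1 / 2 : ℝ)..t, bT s = ∫ _ in (1 / 2 : ℝ)..t, (0 : ℝ) := by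
      refine intervalIntegral.integral_congr fun s hs => ?_
      rw [Set.uIcc_of_le h] at hs
      exact bT_of_ge hs.1
    rw [h3]
    simp
  rw [h1, h2, add_zero]

theorem intB_half_pos : 0 < intB (1 / 2) := by
  refine intervalIntegral.intervalIntegral_pos_of_pos_on
    (bT_continuous.intervalIntegrable _ _) (fun x hx => ?_) (by norm_num)
  exact bump_pos (by linarith [hx.1]) (by linarith [hx.2])

theorem intA_one_pos : 0 < intA 1 := by
  unfold intA
  have h1 : ∫ s in (0 : ℝ)..1, aT s = (∫ s in (0 : ℝ)..(1 / 2), aT s) +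
      ∫ s in (1 / 2 : ℝ)..1, aT s :=
    (intervalIntegral.integral_add_adjacent_intervals
      (aT_continuous.intervalIntegrable _ _) (aT_continuous.intervalIntegrable _ _)).symm
  have h2 : 0 ≤ ∫ s in (0 : ℝ)..(1 / 2), aT s :=
    intervalIntegral.integral_nonneg (by norm_num) fun s _ => aT_nonneg s
  have h3 : 0 < ∫ s in (1 / 2 : ℝ)..1, aT s :=
    intervalIntegral.intervalIntegral_pos_of_pos_on
      (aT_continuous.intervalIntegrable _ _) (fun x hx => aT_pos hx.1 hx.2) (by norm_num)
  rw [h1]
  linarith

theorem intA_nat (n : ℕ) : intA n = n * intA 1 := by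
  induction n with
  | zero => simp [intA]
  | succ n ih =>
    have h1 : intA ((n : ℝ) + 1) = intA n + ∫ s in (n : ℝ)..(n + 1), aT s :=
      (intervalIntegral.integral_add_adjacent_intervals
        (aT_continuous.intervalIntegrable _ _) (aT_continuous.intervalIntegrable _ _)).symm
    have h2 : ∫ s in (n : ℝ)..(n + 1), aT s = ∫ s in (0 : ℝ)..(0 + 1), aT s :=
      aT_periodic.intervalIntegral_add_eq _ _
    push_cast
    rw [h1, h2, ih, zero_add]
    unfold intA
    ring

/-! ### The shift amplitude -/

theorem exists_shiftCode : ∃ c : RatCode,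
    1 < 2 * (ratVal c * intB (1 / 2)) ∧ ratVal c * intB (1 / 2) < 1 := by
  have hI := intB_half_pos
  obtain ⟨q, hq1, hq2⟩ := exists_rat_btwn
    (show 1 / (2 * intB (1 / 2)) < 1 / intB (1 / 2) by
      apply one_div_lt_one_div_of_lt hI
      linarith)
  have hq0 : (0 : ℝ) < q := lt_trans (by positivity) hq1
  have hq0' : 0 < q := by exact_mod_cast hq0
  refine ⟨(q.num.toNat, 0, q.den - 1), ?_⟩
  have h1 : ratVal (q.num.toNat, 0, q.den - 1) = (q : ℝ) := by
    simp only [ratVal]
    have hnum : ((q.num.toNat : ℕ) : ℝ) = (q.num : ℝ) := by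
      have : (q.num.toNat : ℤ) = q.num := Int.toNat_of_nonneg (Rat.num_nonneg.2 hq0'.le)
      exact_mod_cast this
    rw [hnum, Nat.cast_sub (Nat.succ_le_of_lt q.den_pos)]
    push_cast
    rw [sub_add_cancel, sub_zero]
    exact (Rat.cast_def q).symm
  rw [h1]
  constructor
  · rw [div_lt_iff₀ (by positivity)] at hq1
    linarith
  · rwa [lt_div_iff₀ hI] at hq2

/-- A fixed rational constant. -/
noncomputable def shiftCode : RatCode := Classical.choose exists_shiftCode

theorem shiftCode_spec :
    1 < 2 * (ratVal shiftCode * intB (1 / 2)) ∧ ratVal shiftCode * intB (1 / 2) < 1 :=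
  Classical.choose_spec exists_shiftCode

/-- The strength of the initial push for the input `w`. -/
noncomputable def push (w : List ℕ) : ℝ := ratVal shiftCode * (1 / 2) ^ (Encodable.encode w)

theorem CR_push : CR push := by
  have hc : Computable fun w : List ℕ =>
      ((1, 0, 2 ^ (Encodable.encode w) - 1) : RatCode) :=
    (Computable.const 1).pair ((Computable.const 0).pair
      (Primrec.nat_sub.to_comp.comp (primrec_pow.to_comp.comp (Computable.const 2)
        Computable.encode) (Computable.const 1)))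
  have h1 : CR (fun _ : List ℕ => ratVal shiftCode) :=
    CR.rat (r := fun _ : List ℕ => shiftCode) (Computable.const _)
  refine (h1.mul (CR.rat hc)).congr fun w => ?_
  unfold push
  congr 1
  simp only [ratVal]
  rw [Nat.cast_sub Nat.one_le_two_pow]
  push_cast
  rw [sub_add_cancel, sub_zero, one_div_pow]

/-- The position of the marked point after the initial push. -/
noncomputable def pos (w : List ℕ) : ℝ := push w * intB (1 / 2)

theorem pos_window (w : List ℕ) :
    1 < 2 ^ (Encodable.encode w + 1) * pos w ∧ 2 ^ (Encodable.encode w + 1) * pos w < 2 := by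
  have h := shiftCode_spec
  have h1 : (2 : ℝ) ^ (Encodable.encode w + 1) * pos w =
      2 * (ratVal shiftCode * intB (1 / 2)) := by
    unfold pos push
    rw [pow_succ, one_div_pow]
    have : (2 : ℝ) ^ (Encodable.encode w) ≠ 0 := by positivity
    field_simp
  rw [h1]
  constructor
  · exact h.1
  · linarith [h.2]

theorem pos_mem (w : List ℕ) : 0 ≤ pos w ∧ pos w < 1 := by
  have h := pos_window w
  have h2 : (2 : ℝ) ≤ 2 ^ (Encodable.encode w + 1) := by
    rw [pow_succ]
    have : (1 : ℝ) ≤ 2 ^ (Encodable.encode w) := one_le_pow₀ (by norm_num)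
    linarith
  constructor
  · by_contra hneg
    push Not at hneg
    have : (2 : ℝ) ^ (Encodable.encode w + 1) * pos w ≤ 0 :=
      mul_nonpos_of_nonneg_of_nonpos (by positivity) hneg.le
    linarith [h.1]
  · by_contra hge
    push Not at hge
    have : (2 : ℝ) * 1 ≤ 2 ^ (Encodable.encode w + 1) * pos w := by gcongr
    linarith [h.2]

theorem hM_pos_iff (D : Desc) (w : List ℕ) :
    (0 < hM D (pos w) ↔ ∃ n, haltedBy ((D, w), n) = true) ∧ 0 ≤ hM D (pos w) := by
  have hw := pos_window w
  have h1 : hM D (pos w) = ampSeq D (Encodable.encode w) / (Encodable.encode w).factorial *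
      bump (2 ^ (Encodable.encode w + 1) * pos w - 1) := by
    unfold hM per
    have h2 : Int.fract (pos w) = pos w := Int.fract_eq_self.2 (pos_mem w)
    rw [h2]
    exact prof_window _ _ hw.1 hw.2
  have h2 : ampSeq D (Encodable.encode w) = amp (D, w) := by
    unfold ampSeq
    rw [Denumerable.ofNat_encode]
  have h3 : 0 < bump (2 ^ (Encodable.encode w + 1) * pos w - 1) :=
    bump_pos (by linarith [hw.1]) (by linarith [hw.2])
  have h4 : (0 : ℝ) < (Encodable.encode w).factorial := by
    exact_mod_cast Nat.factorial_pos _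
  rw [h1, h2, ← amp_pos_iff]
  refine ⟨⟨fun h => ?_, fun h => by positivity⟩, ?_⟩
  · by_contra h5
    have h6 : amp (D, w) = 0 := le_antisymm (not_lt.1 h5) (amp_nonneg _)
    rw [h6, zero_div, zero_mul] at h
    exact lt_irrefl _ h
  · have := amp_nonneg (D, w)
    positivity

/-! ### Velocity and force -/

/-- The velocity field. -/
noncomputable def velocity (D : Desc) (w : List ℕ) : Field := fun t x =>
  ![push w * bT t, 0, aT t * hM D (x 0)]

/-- The force. -/
noncomputable def force (ν : ℝ) (D : Desc) (w : List ℕ) : Field := fun t x =>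
  ![push w * deriv bT t, 0,
    deriv aT t * hM D (x 0) + (-ν * aT t) * iteratedDeriv 2 (hM D) (x 0)]

theorem hM_periodic (D : Desc) (x : ℝ) (k : ℤ) : hM D (x + k) = hM D x := per_add_int _ _ _

theorem hM2_periodic (D : Desc) (x : ℝ) (k : ℤ) :
    iteratedDeriv 2 (hM D) (x + k) = iteratedDeriv 2 (hM D) x := by
  unfold hM
  rw [iteratedDeriv_per (flat_prof D)]
  exact per_add_int _ _ _

theorem smooth_velocity (D : Desc) (w : List ℕ) : SmoothField (velocity D w) := by
  constructor
  · intro t x k
    simp only [velocity, hM_periodic]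
  · rw [contDiff_pi]
    intro i
    fin_cases i
    · exact contDiff_const.mul (bT_contDiff.comp contDiff_fst)
    · exact contDiff_const
    · exact (aT_contDiff.comp contDiff_fst).mul
        ((hM_contDiff D).comp ((contDiff_apply ℝ ℝ (0 : Fin 3)).comp contDiff_snd))

theorem smooth_force (ν : ℝ) (D : Desc) (w : List ℕ) : SmoothField (force ν D w) := by
  constructor
  · intro t x k
    simp only [force, hM_periodic, hM2_periodic]
  · rw [contDiff_pi]
    intro i
    fin_cases i
    · exact contDiff_const.mul (((contDiff_infty_iff_deriv.1 bT_contDiff).2).comp contDiff_fst)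
    · exact contDiff_const
    · have hx : ContDiff ℝ ∞ fun q : ℝ × (Fin 3 → ℝ) => q.2 0 :=
        (contDiff_apply ℝ ℝ (0 : Fin 3)).comp contDiff_snd
      exact ((((contDiff_infty_iff_deriv.1 aT_contDiff).2).comp contDiff_fst).mul
        ((hM_contDiff D).comp hx)).add
        ((contDiff_const.mul (aT_contDiff.comp contDiff_fst)).mul
          ((contDiff_iteratedDeriv (hM_contDiff D) 2).comp hx))

/-! ### The compiler -/

theorem iteratedDeriv_const_fun (c : ℝ) (k : ℕ) (x : ℝ) :
    iteratedDeriv k (fun _ : ℝ => c) x = if k = 0 then c else 0 := by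
  simp [iteratedDeriv_const]

theorem CR_const {ι : Type*} [Primcodable ι] {ν : ℝ} (h : ComputableReal ν) :
    CR fun _ : ι => ν := by
  obtain ⟨g, hg, hg'⟩ := h
  exact ⟨fun p => g p.2, hg.comp Computable.snd, fun _ n => hg' n⟩

theorem CR_zero {ι : Type*} [Primcodable ι] : CR fun _ : ι => (0 : ℝ) :=
  (CR.nat (r := fun _ : ι => 0) (Computable.const 0)).congr fun _ => by simp

theorem CR_one {ι : Type*} [Primcodable ι] : CR fun _ : ι => (1 : ℝ) :=
  (CR.nat (r := fun _ : ι => 1) (Computable.const 1)).congr fun _ => by simp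

section factors

theorem cbT : CR fun p : (Desc × List ℕ) × (ℕ × RatCode) =>
    iteratedDeriv p.2.1 (fun t => push p.1.2 * deriv bT t) (ratVal p.2.2) := by
  have h1 : CR fun p : (Desc × List ℕ) × (ℕ × RatCode) => push p.1.2 :=
    CR_push.comp (Computable.snd.comp Computable.fst)
  have h2 : CR fun p : (Desc × List ℕ) × (ℕ × RatCode) =>
      iteratedDeriv (p.2.1 + 1) bT (ratVal p.2.2) :=
    CR_bT.comp (σ := fun p : (Desc × List ℕ) × (ℕ × RatCode) => (p.2.1 + 1, p.2.2))
      ((Computable.succ.comp (Computable.fst.comp Computable.snd)).pair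
      (Computable.snd.comp Computable.snd))
  refine (h1.mul h2).congr fun p => ?_
  rw [iteratedDeriv_const_mul_field, iteratedDeriv_succ']

theorem cone : CR fun p : (Desc × List ℕ) × (ℕ × RatCode) =>
    iteratedDeriv p.2.1 (fun _ : ℝ => (1 : ℝ)) (ratVal p.2.2) := by
  have hb : Computable fun p : (Desc × List ℕ) × (ℕ × RatCode) => decide (p.2.1 = 0) := by
    have h : Primrec fun p : (Desc × List ℕ) × (ℕ × RatCode) => decide (p.2.1 = 0) :=
      (PrimrecRel.comp Primrec.eq (Primrec.fst.comp Primrec.snd) (Primrec.const 0)).decide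
    exact h.to_comp
  refine (CR.bcond CR_one CR_zero hb).congr fun p => ?_
  rw [iteratedDeriv_const_fun]
  by_cases h : p.2.1 = 0
  · rw [decide_eq_true h, cond_true, if_pos h]
  · rw [decide_eq_false h, cond_false, if_neg h]

theorem czero : CR fun p : (Desc × List ℕ) × (ℕ × RatCode) =>
    iteratedDeriv p.2.1 (fun _ : ℝ => (0 : ℝ)) (ratVal p.2.2) := by
  refine CR_zero.congr fun p => ?_
  rw [iteratedDeriv_const_fun]
  simp

theorem caT' : CR fun p : (Desc × List ℕ) × (ℕ × RatCode) =>
    iteratedDeriv p.2.1 (deriv aT) (ratVal p.2.2) := by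
  refine (CR_aT.comp (σ := fun p : (Desc × List ℕ) × (ℕ × RatCode) => (p.2.1 + 1, p.2.2))
    ((Computable.succ.comp (Computable.fst.comp Computable.snd)).pair
      (Computable.snd.comp Computable.snd))).congr fun p => ?_
  simp only
  rw [iteratedDeriv_succ']

theorem caT {ν : ℝ} (hν : ComputableReal ν) : CR fun p : (Desc × List ℕ) × (ℕ × RatCode) =>
    iteratedDeriv p.2.1 (fun t => -ν * aT t) (ratVal p.2.2) := by
  have h2 : CR fun p : (Desc × List ℕ) × (ℕ × RatCode) =>
      iteratedDeriv p.2.1 aT (ratVal p.2.2) := CR_aT.comp Computable.snd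
  refine ((CR_const hν).neg.mul h2).congr fun p => ?_
  rw [iteratedDeriv_const_mul_field]

theorem chM : CR fun p : (Desc × List ℕ) × (ℕ × RatCode) =>
    iteratedDeriv p.2.1 (hM p.1.1) (ratVal p.2.2) :=
  CR_hM.comp (σ := fun p : (Desc × List ℕ) × (ℕ × RatCode) => (p.1.1, p.2))
    ((Computable.fst.comp Computable.fst).pair Computable.snd)

theorem chM2 : CR fun p : (Desc × List ℕ) × (ℕ × RatCode) =>
    iteratedDeriv p.2.1 (iteratedDeriv 2 (hM p.1.1)) (ratVal p.2.2) := by
  refine (CR_hM.comp (σ := fun p : (Desc × List ℕ) × (ℕ × RatCode) =>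
    (p.1.1, (p.2.1 + 2, p.2.2)))
    ((Computable.fst.comp Computable.fst).pair
      ((Computable.succ.comp (Computable.succ.comp
        (Computable.fst.comp Computable.snd))).pair
      (Computable.snd.comp Computable.snd)))).congr fun p => ?_
  simp only
  rw [iteratedDeriv_eq_iterate, iteratedDeriv_eq_iterate, iteratedDeriv_eq_iterate,
    Function.iterate_add_apply]

theorem comp0 : CR fun z : (Desc × List ℕ) × Req =>
    mixedD z.2.2.1 (two (fun t => push z.1.2 * deriv bT t) (fun _ => 1) (fun _ => 0)
      (fun _ => 0)) (reqPt z.2.2.2) :=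
  CR_two (A := fun p : Desc × List ℕ => fun t => push p.2 * deriv bT t)
    (B := fun _ => fun _ => 1) (C := fun _ => fun _ => 0) (D := fun _ => fun _ => 0)
    (fun _ => contDiff_const.mul (contDiff_infty_iff_deriv.1 bT_contDiff).2)
    (fun _ => contDiff_const) (fun _ => contDiff_const) (fun _ => contDiff_const)
    cbT cone czero czero

theorem comp1 : CR fun z : (Desc × List ℕ) × Req =>
    mixedD z.2.2.1 (two (fun _ => 0) (fun _ => 0) (fun _ => 0)
      (fun _ => 0)) (reqPt z.2.2.2) :=
  CR_two (ι := Desc × List ℕ) (A := fun _ => fun _ => 0)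
    (B := fun _ => fun _ => 0) (C := fun _ => fun _ => 0) (D := fun _ => fun _ => 0)
    (fun _ => contDiff_const)
    (fun _ => contDiff_const) (fun _ => contDiff_const) (fun _ => contDiff_const)
    czero czero czero czero

theorem comp2 {ν : ℝ} (hν : ComputableReal ν) : CR fun z : (Desc × List ℕ) × Req =>
    mixedD z.2.2.1 (two (deriv aT) (hM z.1.1) (fun t => -ν * aT t)
      (iteratedDeriv 2 (hM z.1.1))) (reqPt z.2.2.2) :=
  CR_two (A := fun _ : Desc × List ℕ => deriv aT)
    (B := fun p => hM p.1) (C := fun _ => fun t => -ν * aT t)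
    (D := fun p => iteratedDeriv 2 (hM p.1))
    (fun _ => (contDiff_infty_iff_deriv.1 aT_contDiff).2)
    (fun p => hM_contDiff p.1) (fun _ => contDiff_const.mul aT_contDiff)
    (fun p => contDiff_iteratedDeriv (hM_contDiff p.1) 2)
    caT' chM (caT hν) chM2

end factors

/-- The `i`-th component of the force as a function on space-time. -/
noncomputable def forceComp (ν : ℝ) (D : Desc) (w : List ℕ) (i : Fin 3) (y : Fin 4 → ℝ) : ℝ :=
  force ν D w (y 0) (fun j => y j.succ) i

theorem forceComp_zero (ν : ℝ) (D : Desc) (w : List ℕ) : forceComp ν D w 0 =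
    two (fun t => push w * deriv bT t) (fun _ => 1) (fun _ => 0) (fun _ => 0) := by
  funext y
  simp [forceComp, force, two]

theorem forceComp_one (ν : ℝ) (D : Desc) (w : List ℕ) : forceComp ν D w 1 =
    two (fun _ => 0) (fun _ => 0) (fun _ => 0) (fun _ => 0) := by
  funext y
  simp [forceComp, force, two]

theorem forceComp_two (ν : ℝ) (D : Desc) (w : List ℕ) : forceComp ν D w 2 =
    two (deriv aT) (hM D) (fun t => -ν * aT t) (iteratedDeriv 2 (hM D)) := by
  funext y
  simp [forceComp, force, two]

/-- The mixed derivatives of the force are uniformly computable. -/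
theorem CR_force {ν : ℝ} (hν : ComputableReal ν) :
    CR fun z : (Desc × List ℕ) × Req =>
      mixedD z.2.2.1 (forceComp ν z.1.1 z.1.2 z.2.1) (reqPt z.2.2.2) := by
  have hi : Primrec fun z : (Desc × List ℕ) × Req => z.2.1 := Primrec.fst.comp Primrec.snd
  have hb0 : Computable fun z : (Desc × List ℕ) × Req => decide (z.2.1 = 0) := by
    have h : Primrec fun z : (Desc × List ℕ) × Req => decide (z.2.1 = 0) :=
      (PrimrecRel.comp Primrec.eq hi (Primrec.const 0)).decide
    exact h.to_comp
  have hb1 : Computable fun z : (Desc × List ℕ) × Req => decide (z.2.1 = 1) := by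
    have h : Primrec fun z : (Desc × List ℕ) × Req => decide (z.2.1 = 1) :=
      (PrimrecRel.comp Primrec.eq hi (Primrec.const 1)).decide
    exact h.to_comp
  refine (CR.bcond comp0 (CR.bcond comp1 (comp2 hν) hb1) hb0).congr fun z => ?_
  obtain ⟨⟨D, w⟩, i, L, q⟩ := z
  show (bif decide (i = 0) then _ else bif decide (i = 1) then _ else _) = _
  by_cases h0 : i = 0
  · subst h0
    rw [decide_eq_true rfl, cond_true]
    exact congrFun (congrArg (mixedD L) (forceComp_zero ν D w).symm) _
  · rw [decide_eq_false h0, cond_false]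
    by_cases h1 : i = 1
    · subst h1
      rw [decide_eq_true rfl, cond_true]
      exact congrFun (congrArg (mixedD L) (forceComp_one ν D w).symm) _
    · rw [decide_eq_false h1, cond_false]
      have h3 : i = 2 := by
        fin_cases i
        · exact absurd rfl h0
        · exact absurd rfl h1
        · rfl
      subst h3
      exact congrFun (congrArg (mixedD L) (forceComp_two ν D w).symm) _

/-- The `s-m-n` theorem for encodable types. -/
theorem smn {α β σ : Type} [Primcodable α] [Primcodable β] [Primcodable σ] {G : α × β → σ}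
    (hG : Computable G) : ∃ c : α → Nat.Partrec.Code, Computable c ∧
      ∀ a b, Encodable.encode (G (a, b)) ∈ (c a).eval (Encodable.encode b) := by
  have hpart : Nat.Partrec fun n => Part.bind (Encodable.decode (α := α × β) n)
      fun a => ((G a : Part σ)).map Encodable.encode := hG.partrec
  obtain ⟨c, hc⟩ := Nat.Partrec.Code.exists_code.1 hpart
  refine ⟨fun p => c.curry (Encodable.encode p),
    (Nat.Partrec.Code.primrec₂_curry.comp (Primrec.const c) Primrec.encode).to_comp,
    fun a b => ?_⟩
  rw [Nat.Partrec.Code.eval_curry, hc]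
  have h1 : Nat.pair (Encodable.encode a) (Encodable.encode b) =
      Encodable.encode (a, b) := (Encodable.encode_prod_val _ _).symm
  rw [h1]
  show _ ∈ Part.bind (Encodable.decode (α := α × β) (Encodable.encode (a, b)))
      fun a => ((G a : Part σ)).map Encodable.encode
  rw [Encodable.encodek]
  simp

/-- A request together with an accuracy. -/
abbrev ReqAcc : Type := Fin 3 × List (Fin 4) × List RatCode × RatCode

def reqOf (z : ReqAcc) : Req := (z.1, z.2.1, (z.2.2.1.getD 0 (0, 0, 0), z.2.2.1.getD 1 (0, 0, 0),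
  z.2.2.1.getD 2 (0, 0, 0), z.2.2.1.getD 3 (0, 0, 0)))
def accOf (z : ReqAcc) : ℕ := z.2.2.2.2.2

theorem computable_reqOf : Computable reqOf := by
  have hl : Primrec fun z : ReqAcc => z.2.2.1 := Primrec.fst.comp (Primrec.snd.comp Primrec.snd)
  have hg : ∀ n : ℕ, Primrec fun z : ReqAcc => z.2.2.1.getD n (0, 0, 0) := fun n =>
    (Primrec.list_getD (0, 0, 0)).comp hl (Primrec.const n)
  have h : Primrec reqOf :=
    Primrec.fst.pair ((Primrec.fst.comp Primrec.snd).pair
      ((hg 0).pair ((hg 1).pair ((hg 2).pair (hg 3)))))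
  exact h.to_comp

theorem computable_accOf : Computable accOf := by
  have h : Primrec accOf :=
    primrec_den.comp (Primrec.snd.comp (Primrec.snd.comp Primrec.snd))
  exact h.to_comp

theorem ratVal_ge_of_pos {ε : RatCode} (hε : 0 < ratVal ε) :
    1 / ((ε.2.2 : ℝ) + 1) ≤ ratVal ε := by
  obtain ⟨a, b, d⟩ := ε
  simp only [ratVal] at hε ⊢
  have hd : (0 : ℝ) < (d : ℝ) + 1 := by positivity
  have h2 : (0 : ℝ) < (a : ℝ) - b := by
    rcases div_pos_iff.1 hε with h | h
    · exact h.1
    · linarith [h.2]
  have h3 : b < a := by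
    have : (b : ℝ) < a := by linarith
    exact_mod_cast this
  have h4 : (1 : ℝ) ≤ (a : ℝ) - b := by
    have : b + 1 ≤ a := h3
    have h5 : ((b + 1 : ℕ) : ℝ) ≤ a := by exact_mod_cast this
    push_cast at h5
    linarith
  gcongr

/-- A uniformly computable family is compiled into programs. -/
theorem exists_compiler {F : (Desc × List ℕ) × Req → ℝ} (hF : CR F) :
    ∃ compile : Desc × List ℕ → Nat.Partrec.Code, Computable compile ∧
      ∀ (p : Desc × List ℕ) (z : ReqAcc), 0 < ratVal z.2.2.2 → ∃ r : RatCode,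
          Encodable.encode r ∈ (compile p).eval (Encodable.encode z) ∧
            |F (p, reqOf z) - ratVal r| ≤ ratVal z.2.2.2 := by
  obtain ⟨g, hg, hg'⟩ := hF
  have hG : Computable fun z : (Desc × List ℕ) × ReqAcc => g ((z.1, reqOf z.2), accOf z.2) :=
    hg.comp ((Computable.fst.pair (computable_reqOf.comp Computable.snd)).pair
      (computable_accOf.comp Computable.snd))
  obtain ⟨c, hc, hc'⟩ := smn hG
  exact ⟨c, hc, fun p z hz => ⟨_, hc' p z, (hg' _ _).trans (ratVal_ge_of_pos hz)⟩⟩

/-- The force compiler. -/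
theorem exists_force_compiler {ν : ℝ} (hν : ComputableReal ν) :
    ∃ compile : Desc × List ℕ → Nat.Partrec.Code, Computable compile ∧
      ∀ (p : Desc × List ℕ) (i : Fin 3) (L : List (Fin 4)) (q : Fin 4 → RatCode) (ε : RatCode),
        0 < ratVal ε → ∃ r : RatCode,
          Encodable.encode r ∈ (compile p).eval (Encodable.encode (i, L, List.ofFn q, ε)) ∧
          |mixedD L (forceComp ν p.1 p.2 i) (fun k => ratVal (q k)) - ratVal r| ≤ ratVal ε := by
  obtain ⟨c, hc, hc'⟩ := exists_compiler (CR_force hν)
  refine ⟨c, hc, fun p i L q ε hε => ?_⟩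
  obtain ⟨r, hr, hr'⟩ := hc' p (i, L, List.ofFn q, ε) hε
  refine ⟨r, hr, ?_⟩
  have h1 : reqPt (reqOf (i, L, List.ofFn q, ε)).2.2 = fun k => ratVal (q k) := by
    funext k
    fin_cases k <;> simp [reqPt, reqOf]
  have h2 : mixedD L (forceComp ν p.1 p.2 i) (reqPt (reqOf (i, L, List.ofFn q, ε)).2.2) =
      mixedD L (forceComp ν p.1 p.2 i) (fun k => ratVal (q k)) := by
    rw [h1]
  rw [← h2]
  exact hr'

end Vale.Agent.P113
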