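import Mathlib

/-!
# Definitions used by the statement of P113

A function on the flat torus `(ℝ/ℤ)³` is a function on `ℝ³` invariant under translation by `ℤ³`.
-/

open scoped ContDiff

namespace Vale.Agent.HaltNS

/-! ### Turing machines -/

/-- A deterministic one-tape Turing machine with states `Fin Q` and alphabet `Fin K`. In state `q`,
reading `a`, it goes to state `next q a`, writes `write q a` and moves its head by
`move q a - 1`, which is `-1`, `0` or `1`, cells. -/
structure Machine where
  Q : ℕ
  K : ℕ
  start : Fin Q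
  blank : Fin K
  halting : Fin Q → Bool
  next : Fin Q → Fin K → Fin Q
  write : Fin Q → Fin K → Fin K
  move : Fin Q → Fin K → Fin 3

/-- A configuration: the state, the position of the head, the content of the two-sided tape. -/
structure Config (M : Machine) where
  state : Fin M.Q
  pos : ℤ
  tape : ℤ → Fin M.K

/-- One step of the machine. -/
def step {M : Machine} (c : Config M) : Config M :=
  ⟨M.next c.state (c.tape c.pos), c.pos + ((M.move c.state (c.tape c.pos) : ℕ) : ℤ) - 1,
    Function.update c.tape c.pos (M.write c.state (c.tape c.pos))⟩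

/-- The initial configuration: the word `w` on an otherwise blank tape, the head at its first
cell. -/
def init (M : Machine) (w : List (Fin M.K)) : Config M :=
  ⟨M.start, 0, fun z => if z < 0 then M.blank else w.getD z.toNat M.blank⟩

/-- `M` halts on `w`: a halting state is reached after finitely many (possibly no) steps. -/
def HaltsOn (M : Machine) (w : List (Fin M.K)) : Prop :=
  ∃ n : ℕ, M.halting (step^[n] (init M w)).state = true

/-- Finite descriptions of pairs of a machine and an input. -/
abbrev Desc : Type := (ℕ × ℕ × List Bool × List (List (ℕ × ℕ × ℕ))) × List ℕ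

/-- The description of the pair `(M, w)` which is given to a force compiler: the start state, the
blank, the halting flags, the transition table, and the word. -/
def describe (M : Machine) (w : List (Fin M.K)) : Desc :=
  ((M.start, M.blank, List.ofFn M.halting, List.ofFn fun q => List.ofFn fun a =>
    (↑(M.next q a), ↑(M.write q a), ↑(M.move q a))), w.map Fin.val)

/-! ### Rational numbers, computable reals -/

/-- Codes of rational numbers. -/
abbrev RatCode : Type := ℕ × ℕ × ℕ

/-- The code `(a, b, d)` stands for the rational number `(a - b) / (d + 1)`. -/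
noncomputable def ratVal (r : RatCode) : ℝ := ((r.1 : ℝ) - r.2.1) / (r.2.2 + 1)

/-- A real number is computable if an algorithm returns, for each `n`, a rational number at
distance at most `1 / (n + 1)` from it. -/
def ComputableReal (x : ℝ) : Prop :=
  ∃ g : ℕ → RatCode, Computable g ∧ ∀ n : ℕ, |x - ratVal (g n)| ≤ 1 / ((n : ℝ) + 1)

/-! ### Functions on the torus -/

abbrev E3 : Type := Fin 3 → ℝ

/-- Functions of the time `t` and of the point `x`. -/
abbrev ST : Type := ℝ → E3 → ℝ

/-- Time-dependent vector fields, given by their three components. -/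
abbrev VF : Type := Fin 3 → ST

/-- The partial derivative of `g` in the coordinate `j`. -/
noncomputable def pd {n : ℕ} (j : Fin n) (g : (Fin n → ℝ) → ℝ) (x : Fin n → ℝ) : ℝ :=
  deriv (fun s => g (Function.update x j s)) (x j)

/-- The spatial derivative. -/
noncomputable def dx (j : Fin 3) (g : ST) : ST := fun t x => pd j (g t) x

/-- The time derivative on `[0, T]`, one-sided at the end points. -/
noncomputable def dt (T : ℝ) (g : ST) : ST := fun t x => derivWithin (fun s => g s x) (Set.Icc 0 T) t

/-- `g` is a function on the torus. -/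
def Periodic (g : E3 → ℝ) : Prop :=
  ∀ (x : E3) (k : Fin 3 → ℤ), g (fun i => x i + k i) = g x

/-- `g` is a smooth time-dependent function on the torus. -/
def Smooth (g : ST) : Prop :=
  (∀ t, Periodic (g t)) ∧ ContDiff ℝ ∞ fun q : ℝ × E3 => g q.1 q.2

/-- `g` is continuous on `[0, T] × ℝ³`. -/
def Cont (T : ℝ) (g : ST) : Prop :=
  ContinuousOn (fun q : ℝ × E3 => g q.1 q.2) (Set.Icc 0 T ×ˢ Set.univ)

/-- The program `c` returns every mixed derivative (`L` lists the directions of differentiation,
`0` being the time) of every component `f i` at every rational point `q = (t, x)` with `t ≥ 0` to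
any prescribed rational accuracy `ε > 0`. -/
def Computes (c : Nat.Partrec.Code) (f : VF) : Prop :=
  ∀ (i : Fin 3) (L : List (Fin 4)) (q : Fin 4 → RatCode) (ε : RatCode),
    0 ≤ ratVal (q 0) → 0 < ratVal ε →
      ∃ r : RatCode, Encodable.encode r ∈ c.eval (Encodable.encode (i, L, List.ofFn q, ε)) ∧
        |L.foldr pd (fun y => f i (y 0) (Fin.tail y)) (fun k => ratVal (q k)) - ratVal r| ≤
          ratVal ε

/-- `(u, p)` is a classical solution on `[0, T]` of the incompressible Navier-Stokes equations on
the torus with viscosity `ν`, force `f` and initial velocity `0`. -/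
structure IsSolution (ν : ℝ) (f : VF) (T : ℝ) (u : VF) (p : ST) : Prop where
  periodic_u : ∀ t ∈ Set.Icc 0 T, ∀ i, Periodic (u i t)
  periodic_p : ∀ t ∈ Set.Icc 0 T, Periodic (p t)
  time_u : ∀ t ∈ Set.Icc 0 T, ∀ x i,
    DifferentiableWithinAt ℝ (fun s => u i s x) (Set.Icc 0 T) t
  space_u : ∀ t ∈ Set.Icc 0 T, ∀ i, ContDiff ℝ 2 (u i t)
  space_p : ∀ t ∈ Set.Icc 0 T, ContDiff ℝ 1 (p t)
  cont_u : ∀ i, Cont T (u i) ∧ Cont T (dt T (u i))
  cont_ux : ∀ i j, Cont T (dx j (u i)) ∧ ∀ k, Cont T (dx k (dx j (u i)))
  cont_p : Cont T p ∧ ∀ j, Cont T (dx j p)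
  momentum : ∀ t ∈ Set.Icc 0 T, ∀ x i, dt T (u i) t x + ∑ j, u j t x * dx j (u i) t x =
    -dx i p t x + ν * ∑ j, dx j (dx j (u i)) t x + f i t x
  div_free : ∀ t ∈ Set.Icc 0 T, ∀ x, ∑ j, dx j (u j) t x = 0
  initial : ∀ x i, u i 0 x = 0
  mean_zero : ∀ t ∈ Set.Icc 0 T, ∫ x in Set.Icc (0 : E3) 1, p t x = 0

/-- The torus. -/
abbrev T3 : Type := Fin 3 → UnitAddCircle

/-- The point of the torus with coordinates `x`. -/
def toT3 (x : E3) : T3 := fun i => (x i : UnitAddCircle)

/-- `X : ℝ → ℝ³` is a lift of the trajectory of the point `a` of the torus. -/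
def IsTrajectory (u : VF) (a : T3) (X : ℝ → E3) : Prop :=
  toT3 (X 0) = a ∧
    ∀ t, 0 ≤ t → ∀ i, HasDerivWithinAt (fun s => X s i) (u i t (X t)) (Set.Ici 0) t

/-- `f` is a family of smooth forces such that, for one time `T₀`, the restriction of `f M w` to
times `t ≥ T₀` is periodic in time and depends on `M` only. -/
def EventuallyPeriodic (f : (M : Machine) → List (Fin M.K) → VF) : Prop :=
  ∃ T₀ ≥ (0 : ℝ), ∀ M : Machine,
    (∃ P > 0, ∀ w i t x, T₀ ≤ t → f M w i (t + P) x = f M w i t x) ∧
      ∀ w w' i t x, T₀ ≤ t → f M w i t x = f M w' i t x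

end Vale.Agent.HaltNS
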