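import Vale.Agent.P113.Defs
import Vale.Agent.P113.Stmt

/-! # Simulation of machines on finite data -/

namespace Vale.Agent.P113

open Vale.Agent.HaltNS (Machine Config step init HaltsOn describe)

/-- Configurations as finite data: state, left part of the tape, head symbol, right part. -/
abbrev SConf : Type := ℕ × List ℕ × ℕ × List ℕ

def sentry (d : Desc) (c : SConf) : ℕ × ℕ × ℕ :=
  (d.2.2.2.getD c.1 []).getD c.2.2.1 (0, 0, 0)

def smove (b : ℕ) (c : SConf) (e : ℕ × ℕ × ℕ) : SConf :=
  bif e.2.2 == 0 then (e.1, c.2.1.tail, c.2.1.head?.getD b, e.2.1 :: c.2.2.2)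
  else bif e.2.2 == 1 then (e.1, c.2.1, e.2.1, c.2.2.2)
  else (e.1, e.2.1 :: c.2.1, c.2.2.2.head?.getD b, c.2.2.2.tail)

def sstep (d : Desc) (c : SConf) : SConf := smove d.2.1 c (sentry d c)

def sinit (d : Desc) (w : List ℕ) : SConf := (d.1, [], w.head?.getD d.2.1, w.tail)

def haltedBy (p : (Desc × List ℕ) × ℕ) : Bool :=
  p.1.1.2.2.1.getD ((sstep p.1.1)^[p.2] (sinit p.1.1 p.1.2)).1 false

theorem primrec_sentry : Primrec₂ sentry := by
  have h1 : Primrec fun p : Desc × SConf => p.1.2.2.2 :=
    Primrec.snd.comp (Primrec.snd.comp (Primrec.snd.comp Primrec.fst))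
  have h2 : Primrec fun p : Desc × SConf => p.1.2.2.2.getD p.2.1 [] :=
    (Primrec.list_getD []).comp h1 (Primrec.fst.comp Primrec.snd)
  have h3 : Primrec fun p : Desc × SConf => p.2.2.2.1 :=
    Primrec.fst.comp (Primrec.snd.comp (Primrec.snd.comp Primrec.snd))
  exact ((Primrec.list_getD (0, 0, 0)).comp h2 h3).to₂

theorem primrec_smove : Primrec fun z : (ℕ × SConf) × (ℕ × ℕ × ℕ) => smove z.1.1 z.1.2 z.2 := by
  have b : Primrec fun z : (ℕ × SConf) × (ℕ × ℕ × ℕ) => z.1.1 := Primrec.fst.comp Primrec.fst
  have e1 : Primrec fun z : (ℕ × SConf) × (ℕ × ℕ × ℕ) => z.2.1 := Primrec.fst.comp Primrec.snd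
  have e2 : Primrec fun z : (ℕ × SConf) × (ℕ × ℕ × ℕ) => z.2.2.1 :=
    Primrec.fst.comp (Primrec.snd.comp Primrec.snd)
  have e3 : Primrec fun z : (ℕ × SConf) × (ℕ × ℕ × ℕ) => z.2.2.2 :=
    Primrec.snd.comp (Primrec.snd.comp Primrec.snd)
  have c : Primrec fun z : (ℕ × SConf) × (ℕ × ℕ × ℕ) => z.1.2 := Primrec.snd.comp Primrec.fst
  have cl : Primrec fun z : (ℕ × SConf) × (ℕ × ℕ × ℕ) => z.1.2.2.1 :=
    Primrec.fst.comp (Primrec.snd.comp c)
  have cr : Primrec fun z : (ℕ × SConf) × (ℕ × ℕ × ℕ) => z.1.2.2.2.2 :=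
    Primrec.snd.comp (Primrec.snd.comp (Primrec.snd.comp c))
  have b0 : Primrec fun z : (ℕ × SConf) × (ℕ × ℕ × ℕ) => (z.2.2.2 == 0) :=
    Primrec.beq.comp e3 (Primrec.const 0)
  have b1 : Primrec fun z : (ℕ × SConf) × (ℕ × ℕ × ℕ) => (z.2.2.2 == 1) :=
    Primrec.beq.comp e3 (Primrec.const 1)
  have r1 : Primrec fun z : (ℕ × SConf) × (ℕ × ℕ × ℕ) =>
      ((z.2.1, z.1.2.2.1, z.2.2.1, z.1.2.2.2.2) : SConf) :=
    e1.pair (cl.pair (e2.pair cr))
  have r0 : Primrec fun z : (ℕ × SConf) × (ℕ × ℕ × ℕ) =>
      ((z.2.1, z.1.2.2.1.tail, z.1.2.2.1.head?.getD z.1.1, z.2.2.1 :: z.1.2.2.2.2) : SConf) :=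
    e1.pair ((Primrec.list_tail.comp cl).pair
      ((Primrec.option_getD.comp (Primrec.list_head?.comp cl) b).pair
      (Primrec.list_cons.comp e2 cr)))
  have r2 : Primrec fun z : (ℕ × SConf) × (ℕ × ℕ × ℕ) =>
      ((z.2.1, z.2.2.1 :: z.1.2.2.1, z.1.2.2.2.2.head?.getD z.1.1, z.1.2.2.2.2.tail) : SConf) :=
    e1.pair ((Primrec.list_cons.comp e2 cl).pair
      ((Primrec.option_getD.comp (Primrec.list_head?.comp cr) b).pair
      (Primrec.list_tail.comp cr)))
  exact Primrec.cond b0 r0 (Primrec.cond b1 r1 r2)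

theorem primrec_sstep : Primrec₂ sstep := by
  have h1 : Primrec fun p : Desc × SConf => p.1.2.1 :=
    Primrec.fst.comp (Primrec.snd.comp Primrec.fst)
  have h2 : Primrec fun p : Desc × SConf => ((p.1.2.1, p.2), sentry p.1 p.2) :=
    (h1.pair Primrec.snd).pair primrec_sentry
  exact (primrec_smove.comp h2).to₂

theorem primrec_haltedBy : Primrec haltedBy := by
  have hd : Primrec fun p : (Desc × List ℕ) × ℕ => p.1.1 := Primrec.fst.comp Primrec.fst
  have hb : Primrec fun p : (Desc × List ℕ) × ℕ => p.1.1.2.1 :=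
    Primrec.fst.comp (Primrec.snd.comp hd)
  have hw : Primrec fun p : (Desc × List ℕ) × ℕ => p.1.2 := Primrec.snd.comp Primrec.fst
  have hinit : Primrec fun p : (Desc × List ℕ) × ℕ => sinit p.1.1 p.1.2 :=
    (Primrec.fst.comp hd).pair ((Primrec.const []).pair
      ((Primrec.option_getD.comp (Primrec.list_head?.comp hw) hb).pair
        (Primrec.list_tail.comp hw)))
  have hit : Primrec fun p : (Desc × List ℕ) × ℕ => (sstep p.1.1)^[p.2] (sinit p.1.1 p.1.2) := by
    refine Primrec.nat_iterate (f := fun p : (Desc × List ℕ) × ℕ => p.2)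
      (g := fun p => sinit p.1.1 p.1.2) (h := fun p => sstep p.1.1) Primrec.snd hinit ?_
    exact (primrec_sstep.comp (hd.comp Primrec.fst) Primrec.snd).to₂
  exact (Primrec.list_getD false).comp
    (Primrec.fst.comp (Primrec.snd.comp (Primrec.snd.comp hd)))
    (Primrec.fst.comp hit)

/-- The machine part of the description. -/
def mdesc (M : Machine) : Desc :=
  ((M.start : ℕ), (M.blank : ℕ), List.ofFn M.halting, List.ofFn fun q => List.ofFn fun a =>
    ((M.next q a : ℕ), (M.write q a : ℕ), (M.move q a : ℕ)))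

/-- The finite configuration `s` represents the configuration `c`. -/
def Rep (M : Machine) (c : Config M) (s : SConf) : Prop :=
  ∃ l r : List (Fin M.K),
    s = ((c.state : ℕ), l.map Fin.val, ((c.tape c.pos : Fin M.K) : ℕ), r.map Fin.val) ∧
      (∀ i : ℕ, c.tape (c.pos - 1 - i) = l.getD i M.blank) ∧
      ∀ i : ℕ, c.tape (c.pos + 1 + i) = r.getD i M.blank

theorem head_map_val {K : ℕ} (l : List (Fin K)) (b : Fin K) :
    (l.map Fin.val).head?.getD (b : ℕ) = ((l.getD 0 b : Fin K) : ℕ) := by
  cases l with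
  | nil => rfl
  | cons a l => rfl

theorem getD_tail {α : Type} (l : List α) (i : ℕ) (b : α) :
    l.tail.getD i b = l.getD (i + 1) b := by
  cases l with
  | nil => simp
  | cons a l => simp

theorem getD_halting (M : Machine) (q : Fin M.Q) :
    (mdesc M).2.2.1.getD (q : ℕ) false = M.halting q := by
  simp [mdesc, List.getD_eq_getElem?_getD]

theorem sentry_desc (M : Machine) (q : Fin M.Q) (a : Fin M.K) (l r : List ℕ) :
    sentry (mdesc M) ((q : ℕ), l, (a : ℕ), r) =
      ((M.next q a : ℕ), (M.write q a : ℕ), (M.move q a : ℕ)) := by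
  simp [sentry, mdesc, List.getD_eq_getElem?_getD]

theorem rep_init (M : Machine) (w : List (Fin M.K)) :
    Rep M (init M w) (sinit (mdesc M) (w.map Fin.val)) := by
  refine ⟨[], w.tail, ?_, fun i => ?_, fun i => ?_⟩
  · have h : (init M w).tape (init M w).pos = w.getD 0 M.blank := by
      simp [init]
    rw [h]
    have h2 : (mdesc M).2.1 = (M.blank : ℕ) := rfl
    simp only [sinit, h2, head_map_val, List.map_nil, List.map_tail]
    rfl
  · have h : (init M w).pos - 1 - (i : ℤ) < 0 := by
      simp only [init]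
      omega
    have h2 : (init M w).pos - 1 - (i : ℤ) = 0 - 1 - i := rfl
    rw [h2] at h ⊢
    simp only [init]
    rw [if_pos h]
    simp
  · have h2 : (init M w).pos + 1 + (i : ℤ) = ((i + 1 : ℕ) : ℤ) := by
      simp only [init]
      push_cast
      ring
    rw [h2, getD_tail]
    simp only [init]
    rw [if_neg (by omega), Int.toNat_natCast]

theorem rep_step (M : Machine) (c : Config M) (s : SConf) (h : Rep M c s) :
    Rep M (step c) (sstep (mdesc M) s) := by
  obtain ⟨l, r, hs, hl, hr⟩ := h
  obtain ⟨q, pos, tape⟩ := c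
  simp only at hs hl hr
  subst hs
  set a := tape pos with ha
  unfold sstep
  rw [sentry_desc]
  have hb : (mdesc M).2.1 = (M.blank : ℕ) := rfl
  rw [hb]
  have hst : step (⟨q, pos, tape⟩ : Config M) =
      ⟨M.next q a, pos + ((M.move q a : ℕ) : ℤ) - 1,
        Function.update tape pos (M.write q a)⟩ := rfl
  rw [hst]
  have hm : (M.move q a : ℕ) < 3 := (M.move q a).2
  rcases (by omega : (M.move q a : ℕ) = 0 ∨ (M.move q a : ℕ) = 1 ∨ (M.move q a : ℕ) = 2) with
    h0 | h0 | h0
  · -- left
    refine ⟨l.tail, M.write q a :: r, ?_, fun i => ?_, fun i => ?_⟩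
    · have h1 : Function.update tape pos (M.write q a) (pos + ((M.move q a : ℕ) : ℤ) - 1) =
          l.getD 0 M.blank := by
        rw [h0, Function.update_of_ne (by push_cast; omega)]
        have := hl 0
        push_cast at this ⊢
        rw [← this]
        congr 1
        ring
      simp only [smove, h0]
      simp only [h0] at h1
      rw [h1, head_map_val]
      simp [List.map_tail]
    · simp only [h0]
      rw [Function.update_of_ne (by push_cast; omega), getD_tail, ← hl (i + 1)]
      congr 1
      push_cast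
      ring
    · simp only [h0]
      cases i with
      | zero =>
        have e : pos + ((0 : ℕ) : ℤ) - 1 + 1 + ((0 : ℕ) : ℤ) = pos := by push_cast; ring
        rw [e, Function.update_self]
        rfl
      | succ i =>
        rw [Function.update_of_ne (by push_cast; omega)]
        show _ = r.getD i M.blank
        rw [← hr i]
        congr 1
        push_cast
        ring
  · -- stay
    refine ⟨l, r, ?_, fun i => ?_, fun i => ?_⟩
    · have e : pos + ((1 : ℕ) : ℤ) - 1 = pos := by push_cast; ring
      simp only [smove, h0, e, Function.update_self]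
      simp
    · simp only [h0]
      rw [Function.update_of_ne (by push_cast; omega), ← hl i]
      congr 1
      push_cast
      ring
    · simp only [h0]
      rw [Function.update_of_ne (by push_cast; omega), ← hr i]
      congr 1
      push_cast
      ring
  · -- right
    refine ⟨M.write q a :: l, r.tail, ?_, fun i => ?_, fun i => ?_⟩
    · have h1 : Function.update tape pos (M.write q a) (pos + ((M.move q a : ℕ) : ℤ) - 1) =
          r.getD 0 M.blank := by
        rw [h0, Function.update_of_ne (by push_cast; omega)]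
        have := hr 0
        push_cast at this ⊢
        rw [← this]
        congr 1
        ring
      simp only [smove, h0]
      simp only [h0] at h1
      rw [h1, head_map_val]
      simp [List.map_tail, List.head?_eq_getElem?]
    · simp only [h0]
      cases i with
      | zero =>
        have e : pos + ((2 : ℕ) : ℤ) - 1 - 1 - ((0 : ℕ) : ℤ) = pos := by push_cast; ring
        rw [e, Function.update_self]
        rfl
      | succ i =>
        rw [Function.update_of_ne (by push_cast; omega)]
        show _ = l.getD i M.blank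
        rw [← hl i]
        congr 1
        push_cast
        ring
    · simp only [h0]
      rw [Function.update_of_ne (by push_cast; omega), getD_tail, ← hr (i + 1)]
      congr 1
      push_cast
      ring

theorem rep_iterate (M : Machine) (w : List (Fin M.K)) (n : ℕ) :
    Rep M (step^[n] (init M w)) ((sstep (mdesc M))^[n] (sinit (mdesc M) (w.map Fin.val))) := by
  induction n with
  | zero => exact rep_init M w
  | succ n ih =>
    rw [Function.iterate_succ_apply', Function.iterate_succ_apply']
    exact rep_step M _ _ ih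

theorem haltedBy_eq (M : Machine) (w : List (Fin M.K)) (n : ℕ) :
    haltedBy ((mdesc M, w.map Fin.val), n) = M.halting (step^[n] (init M w)).state := by
  obtain ⟨l, r, hs, -, -⟩ := rep_iterate M w n
  unfold haltedBy
  simp only [hs]
  exact getD_halting M _

theorem haltsOn_iff (M : Machine) (w : List (Fin M.K)) :
    HaltsOn M w ↔ ∃ n, haltedBy ((mdesc M, w.map Fin.val), n) = true := by
  unfold HaltsOn
  simp only [haltedBy_eq]

end Vale.Agent.P113
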