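import Vale.Agent.P113.Bump
import Vale.Agent.P113.Halt

/-! # Halting amplitudes, the coded profile and periodization -/

open scoped ContDiff

namespace Vale.Agent.P113

/-! ### Limits of uniformly computable reals -/

theorem CR.lim {ι : Type*} [Primcodable ι] {F : ι → ℝ} {G : ι × ℕ → ℝ} (hG : CR G)
    (h : ∀ i n, |F i - G (i, n)| ≤ 1 / ((n : ℝ) + 1)) : CR F := by
  obtain ⟨g, hg, hg'⟩ := hG
  have h2 : Computable fun p : ι × ℕ => 2 * p.2 + 1 :=
    Primrec.nat_double_succ.to_comp.comp Computable.snd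
  refine ⟨fun p => g ((p.1, 2 * p.2 + 1), 2 * p.2 + 1),
    hg.comp ((Computable.fst.pair h2).pair h2), fun i n => ?_⟩
  have h1 := h i (2 * n + 1)
  have h3 := hg' (i, 2 * n + 1) (2 * n + 1)
  have h4 : (1 : ℝ) / (((2 * n + 1 : ℕ) : ℝ) + 1) = 1 / ((n : ℝ) + 1) / 2 := by
    push_cast
    have : (n : ℝ) + 1 ≠ 0 := by positivity
    field_simp
    ring
  rw [h4] at h1 h3
  have h5 := abs_add_le (F i - G (i, 2 * n + 1))
    (G (i, 2 * n + 1) - ratVal (g ((i, 2 * n + 1), 2 * n + 1)))
  rw [sub_add_sub_cancel] at h5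
  show |F i - ratVal (g ((i, 2 * n + 1), 2 * n + 1))| ≤ _
  linarith

/-! ### The halting amplitude -/

/-- The summand of the halting amplitude. -/
noncomputable def ampTerm (p : Desc × List ℕ) (s : ℕ) : ℝ :=
  bif haltedBy (p, s) then (1 / 2 : ℝ) ^ (s + 1) else 0

/-- The halting amplitude: a uniformly computable real number which is positive exactly if the
machine halts. -/
noncomputable def amp (p : Desc × List ℕ) : ℝ := ∑' s, ampTerm p s

theorem ampTerm_nonneg (p : Desc × List ℕ) (s : ℕ) : 0 ≤ ampTerm p s := by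
  unfold ampTerm
  cases haltedBy (p, s) <;> simp

theorem ampTerm_le (p : Desc × List ℕ) (s : ℕ) : ampTerm p s ≤ (1 / 2 : ℝ) ^ (s + 1) := by
  unfold ampTerm
  cases haltedBy (p, s) <;> simp

theorem summable_geo : Summable fun s : ℕ => (1 / 2 : ℝ) ^ (s + 1) := by
  have := (summable_geometric_of_lt_one (r := (1 / 2 : ℝ)) (by norm_num) (by norm_num))
  exact (summable_nat_add_iff 1).2 this

theorem tsum_geo (n : ℕ) : ∑' s : ℕ, (1 / 2 : ℝ) ^ (s + n + 1) = (1 / 2) ^ n := by
  have h : (fun s : ℕ => (1 / 2 : ℝ) ^ (s + n + 1)) = fun s : ℕ => (1 / 2) ^ (n + 1) * (1 / 2) ^ s := by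
    funext s
    rw [← pow_add]
    congr 1
    ring
  rw [h, tsum_mul_left, tsum_geometric_of_lt_one (by norm_num) (by norm_num), pow_succ]
  norm_num
  ring

theorem summable_ampTerm (p : Desc × List ℕ) : Summable (ampTerm p) :=
  Summable.of_nonneg_of_le (ampTerm_nonneg p) (ampTerm_le p) summable_geo

theorem amp_nonneg (p : Desc × List ℕ) : 0 ≤ amp p := tsum_nonneg (ampTerm_nonneg p)

theorem amp_le_one (p : Desc × List ℕ) : amp p ≤ 1 := by
  have h := (summable_ampTerm p).tsum_le_tsum (ampTerm_le p) summable_geo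
  have h2 := tsum_geo 0
  simp only [add_zero, pow_zero] at h2
  rw [h2] at h
  exact h

theorem amp_pos_iff (p : Desc × List ℕ) : 0 < amp p ↔ ∃ s, haltedBy (p, s) = true := by
  constructor
  · intro h
    by_contra hne
    push Not at hne
    have : amp p = 0 := by
      unfold amp
      have h0 : ampTerm p = fun _ => 0 := by
        funext s
        have := hne s
        simp only [ampTerm]
        rw [Bool.eq_false_iff.2 this, cond_false]
      rw [h0, tsum_zero]
    linarith
  · rintro ⟨s, hs⟩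
    refine (summable_ampTerm p).tsum_pos (ampTerm_nonneg p) s ?_
    simp only [ampTerm, hs, cond_true]
    positivity

theorem amp_partial (p : Desc × List ℕ) (n : ℕ) :
    |amp p - ∑ s ∈ Finset.range n, ampTerm p s| ≤ 1 / ((n : ℝ) + 1) := by
  have h1 := (summable_ampTerm p).sum_add_tsum_nat_add n
  have h2 : amp p - ∑ s ∈ Finset.range n, ampTerm p s = ∑' s, ampTerm p (s + n) := by
    unfold amp
    linarith
  rw [h2]
  have h3 : ∑' s, ampTerm p (s + n) ≤ (1 / 2) ^ n := by
    rw [← tsum_geo n]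
    refine ((summable_nat_add_iff n).2 (summable_ampTerm p)).tsum_le_tsum
      (fun s => ampTerm_le p (s + n)) ?_
    exact (summable_nat_add_iff n).2 summable_geo
  have h4 : 0 ≤ ∑' s, ampTerm p (s + n) := tsum_nonneg fun s => ampTerm_nonneg p _
  rw [abs_of_nonneg h4]
  refine h3.trans ?_
  rw [one_div_pow]
  apply one_div_le_one_div_of_le (by positivity)
  have : n + 1 ≤ 2 ^ n := Nat.lt_two_pow_self
  exact_mod_cast this

theorem CR_amp : CR amp := by
  have h1 : CR fun q : (Desc × List ℕ) × ℕ => ampTerm q.1 q.2 := by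
    have hz : CR (fun _ : (Desc × List ℕ) × ℕ => (0 : ℝ)) :=
      (CR.nat (r := fun _ : (Desc × List ℕ) × ℕ => 0) (Computable.const 0)).congr
        fun _ => by simp
    have hp : CR (fun q : (Desc × List ℕ) × ℕ => (1 / 2 : ℝ) ^ (q.2 + 1)) := by
      have hc : Computable fun q : (Desc × List ℕ) × ℕ =>
          ((1, 0, 2 ^ (q.2 + 1) - 1) : RatCode) := by
        have h5 : Computable fun q : (Desc × List ℕ) × ℕ => 2 ^ (q.2 + 1) - 1 :=
          Primrec.nat_sub.to_comp.comp (primrec_pow.to_comp.comp (Computable.const 2)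
            (Computable.succ.comp Computable.snd)) (Computable.const 1)
        exact (Computable.const 1).pair ((Computable.const 0).pair h5)
      refine (CR.rat hc).congr fun q => ?_
      simp only [ratVal]
      rw [Nat.cast_sub Nat.one_le_two_pow]
      push_cast
      rw [sub_add_cancel, sub_zero, one_div_pow]
    exact CR.bcond hp hz primrec_haltedBy.to_comp
  have h2 : CR (fun q : (Desc × List ℕ) × ℕ => ∑ s ∈ Finset.range q.2, ampTerm q.1 s) := by
    have h3 : CR fun z : ((Desc × List ℕ) × ℕ) × ℕ => ampTerm z.1.1 z.2 :=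
      h1.comp (σ := fun z : ((Desc × List ℕ) × ℕ) × ℕ => (z.1.1, z.2))
        ((Computable.fst.comp Computable.fst).pair Computable.snd)
    exact CR.sum h3 Computable.snd
  exact CR.lim h2 fun p n => amp_partial p n

/-! ### Coded profiles -/

/-- Coefficients of the derivatives of the profile. -/
noncomputable def coefK (H : ℕ → ℝ) (k n : ℕ) : ℝ := H n / n.factorial * (2 ^ (n + 1)) ^ k

/-- The derivatives of the profile. -/
noncomputable def profK (H : ℕ → ℝ) (k : ℕ) (x : ℝ) : ℝ :=
  ∑' n : ℕ, coefK H k n * iteratedDeriv k bump (2 ^ (n + 1) * x - 1)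

/-- The profile `∑ H_n / n! bump (2^(n+1) x - 1)`. -/
noncomputable def prof (H : ℕ → ℝ) (x : ℝ) : ℝ :=
  ∑' n : ℕ, H n / n.factorial * bump (2 ^ (n + 1) * x - 1)

theorem hasDerivAt_iteratedDeriv_bump (k : ℕ) (x : ℝ) :
    HasDerivAt (iteratedDeriv k bump) (iteratedDeriv (k + 1) bump x) x := by
  rw [iteratedDeriv_succ]
  have h := (bump_flat.iteratedDeriv k).smooth
  exact (h.differentiable (by simp)).differentiableAt.hasDerivAt

theorem summable_coef {H : ℕ → ℝ} (h0 : ∀ n, 0 ≤ H n) (h1 : ∀ n, H n ≤ 1) (k : ℕ) (B : ℝ) :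
    Summable fun n => coefK H k n * B := by
  have h2 : Summable fun n : ℕ => ((2 : ℝ) ^ k) ^ n / n.factorial :=
    Real.summable_pow_div_factorial _
  have h3 : Summable fun n : ℕ => coefK H k n := by
    refine Summable.of_nonneg_of_le (fun n => ?_) (fun n => ?_) (h2.mul_left (2 ^ k))
    · unfold coefK
      have := h0 n
      positivity
    · unfold coefK
      have h4 : ((2 : ℝ) ^ (n + 1)) ^ k = 2 ^ k * (2 ^ k) ^ n := by
        rw [← pow_mul, ← pow_mul, ← pow_add]
        congr 1
        ring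
      rw [h4]
      have h5 : H n / (n.factorial : ℝ) ≤ 1 / (n.factorial : ℝ) := by
        apply div_le_div_of_nonneg_right (h1 n) (by positivity)
      calc H n / (n.factorial : ℝ) * (2 ^ k * (2 ^ k) ^ n)
          ≤ 1 / (n.factorial : ℝ) * (2 ^ k * (2 ^ k) ^ n) := by gcongr
        _ = 2 ^ k * ((2 ^ k) ^ n / (n.factorial : ℝ)) := by ring
  exact h3.mul_right B

theorem profK_hasDerivAt {H : ℕ → ℝ} (h0 : ∀ n, 0 ≤ H n) (h1 : ∀ n, H n ≤ 1) (k : ℕ) (x : ℝ) :
    HasDerivAt (profK H k) (profK H (k + 1) x) x := by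
  obtain ⟨B, hB0, hB⟩ := (bump_flat.iteratedDeriv (k + 1)).bounded
  obtain ⟨B', hB0', hB'⟩ := (bump_flat.iteratedDeriv k).bounded
  have hc0 : ∀ k n, 0 ≤ coefK H k n := fun k n => by
    unfold coefK
    have := h0 n
    positivity
  refine hasDerivAt_tsum (u := fun n => coefK H (k + 1) n * B)
    (g := fun n y => coefK H k n * iteratedDeriv k bump (2 ^ (n + 1) * y - 1))
    (g' := fun n y => coefK H (k + 1) n * iteratedDeriv (k + 1) bump (2 ^ (n + 1) * y - 1))
    (y₀ := 0) (summable_coef h0 h1 (k + 1) B) (fun n y => ?_) (fun n y => ?_) ?_ x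
  · have h2 := (hasDerivAt_iteratedDeriv_bump k (2 ^ (n + 1) * y - 1))
    have h3 : HasDerivAt (fun y : ℝ => 2 ^ (n + 1) * y - 1) (2 ^ (n + 1)) y := by
      have := ((hasDerivAt_id y).const_mul ((2 : ℝ) ^ (n + 1))).sub_const 1
      simpa using this
    have h4 := (h2.comp y h3).const_mul (coefK H k n)
    have h5 : coefK H (k + 1) n * iteratedDeriv (k + 1) bump (2 ^ (n + 1) * y - 1) =
        coefK H k n * (iteratedDeriv (k + 1) bump (2 ^ (n + 1) * y - 1) * 2 ^ (n + 1)) := by
      unfold coefK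
      ring
    rw [h5]
    exact h4
  · rw [norm_mul, Real.norm_eq_abs, Real.norm_eq_abs, abs_of_nonneg (hc0 _ _)]
    exact mul_le_mul_of_nonneg_left (hB _) (hc0 _ _)
  · refine Summable.of_norm_bounded (summable_coef h0 h1 k B') fun n => ?_
    rw [norm_mul, Real.norm_eq_abs, Real.norm_eq_abs, abs_of_nonneg (hc0 _ _)]
    exact mul_le_mul_of_nonneg_left (hB' _) (hc0 _ _)

theorem prof_eq_profK (H : ℕ → ℝ) : prof H = profK H 0 := by
  funext x
  simp [prof, profK, coefK]

theorem iteratedDeriv_prof {H : ℕ → ℝ} (h0 : ∀ n, 0 ≤ H n) (h1 : ∀ n, H n ≤ 1) (k : ℕ) :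
    iteratedDeriv k (prof H) = profK H k := by
  induction k with
  | zero => simp [prof_eq_profK]
  | succ k ih =>
    rw [iteratedDeriv_succ, ih]
    funext x
    exact (profK_hasDerivAt h0 h1 k x).deriv

theorem prof_flat {H : ℕ → ℝ} (h0 : ∀ n, 0 ≤ H n) (h1 : ∀ n, H n ≤ 1) : Flat (prof H) := by
  refine ⟨?_, fun x hx => ?_, fun x hx => ?_⟩
  · refine contDiff_of_differentiable_iteratedDeriv fun m _ => ?_
    rw [iteratedDeriv_prof h0 h1]
    exact fun x => (profK_hasDerivAt h0 h1 m x).differentiableAt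
  · unfold prof
    have : (fun n : ℕ => H n / n.factorial * bump (2 ^ (n + 1) * x - 1)) = fun _ => 0 := by
      funext n
      rw [bump_of_nonpos, mul_zero]
      have : (2 : ℝ) ^ (n + 1) * x ≤ 0 := mul_nonpos_of_nonneg_of_nonpos (by positivity) hx
      linarith
    rw [this, tsum_zero]
  · unfold prof
    have : (fun n : ℕ => H n / n.factorial * bump (2 ^ (n + 1) * x - 1)) = fun _ => 0 := by
      funext n
      rw [bump_of_one_le, mul_zero]
      have h2 : (2 : ℝ) ≤ 2 ^ (n + 1) := by
        rw [pow_succ]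
        have : (1 : ℝ) ≤ 2 ^ n := one_le_pow₀ (by norm_num)
        linarith
      nlinarith
    rw [this, tsum_zero]

/-- At a rational point with denominator `d + 1`, only the terms `n ≤ d` matter. -/
theorem profK_rat (H : ℕ → ℝ) (k m d : ℕ) :
    profK H k ((m : ℝ) / ((d : ℝ) + 1)) = ∑ n ∈ Finset.range (d + 1),
      coefK H k n * iteratedDeriv k bump (2 ^ (n + 1) * ((m : ℝ) / ((d : ℝ) + 1)) - 1) := by
  unfold profK
  refine tsum_eq_sum fun n hn => ?_
  have hn' : d + 1 ≤ n := by
    simpa using hn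
  have hfl := bump_flat.iteratedDeriv k
  rcases Nat.eq_zero_or_pos m with hm | hm
  · subst hm
    rw [hfl.left, mul_zero]
    norm_num
  · rw [hfl.right, mul_zero]
    have hd : (0 : ℝ) < (d : ℝ) + 1 := by positivity
    have h1 : ((d : ℝ) + 1) ≤ 2 ^ n := by
      have : n < 2 ^ n := Nat.lt_two_pow_self
      have h3 : d + 1 ≤ 2 ^ n := by omega
      exact_mod_cast h3
    have h2 : (1 : ℝ) ≤ m := by exact_mod_cast hm
    have h3 : (1 : ℝ) / (d + 1) ≤ (m : ℝ) / ((d : ℝ) + 1) := by gcongr
    have h4 : 1 ≤ (2 : ℝ) ^ n * (1 / (d + 1)) := by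
      rw [mul_one_div, le_div_iff₀ hd]
      linarith
    have h5 : (2 : ℝ) ^ n * (1 / (d + 1)) ≤ 2 ^ n * ((m : ℝ) / ((d : ℝ) + 1)) := by gcongr
    rw [pow_succ]
    nlinarith

/-- The profile on the `n`-th window. -/
theorem prof_window (H : ℕ → ℝ) (n : ℕ) {x : ℝ} (hx1 : 1 < 2 ^ (n + 1) * x)
    (hx2 : 2 ^ (n + 1) * x < 2) :
    prof H x = H n / n.factorial * bump (2 ^ (n + 1) * x - 1) := by
  unfold prof
  refine tsum_eq_single n fun m hm => ?_
  have hx0 : 0 < x := by
    by_contra h
    push Not at h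
    have : (2 : ℝ) ^ (n + 1) * x ≤ 0 := mul_nonpos_of_nonneg_of_nonpos (by positivity) h
    linarith
  rcases lt_or_gt_of_ne hm with h | h
  · rw [bump_of_nonpos, mul_zero]
    have h1 : (2 : ℝ) ^ (m + 1) * 2 ≤ 2 ^ (n + 1) := by
      rw [← pow_succ]
      exact pow_le_pow_right₀ (by norm_num) (by omega)
    nlinarith
  · rw [bump_of_one_le, mul_zero]
    have h1 : (2 : ℝ) ^ (n + 1) * 2 ≤ 2 ^ (m + 1) := by
      rw [← pow_succ]
      exact pow_le_pow_right₀ (by norm_num) (by omega)
    nlinarith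

/-! ### Periodization -/

/-- The `1`-periodic extension of the restriction of `φ` to `[0, 1)`. -/
noncomputable def per (φ : ℝ → ℝ) (x : ℝ) : ℝ := φ (Int.fract x)

theorem per_add_int (φ : ℝ → ℝ) (x : ℝ) (k : ℤ) : per φ (x + k) = per φ x := by
  simp [per]

theorem per_hasDerivAt {φ : ℝ → ℝ} (h : Flat φ) (x : ℝ) :
    HasDerivAt (per φ) (per (deriv φ) x) x := by
  have hd : ∀ y, HasDerivAt φ (deriv φ y) y := fun y =>
    (h.smooth.differentiable (by simp)).differentiableAt.hasDerivAt
  set m := ⌊x⌋ with hm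
  have h1 : (m : ℝ) ≤ x := Int.floor_le x
  have h2 : x < m + 1 := Int.lt_floor_add_one x
  rcases h1.eq_or_lt with h3 | h3
  · -- integer point
    have h4 : per φ =ᶠ[nhds x] fun y => φ (y - m) + φ (y - m + 1) := by
      have h5 : Set.Ioo ((m : ℝ) - 1) (m + 1) ∈ nhds x :=
        Ioo_mem_nhds (by linarith) (by linarith)
      filter_upwards [h5] with y hy
      rcases lt_or_ge y m with h6 | h6
      · have h7 : Int.fract y = y - m + 1 := by
          rw [Int.fract_eq_iff]
          refine ⟨by linarith [hy.1], by linarith, m - 1, ?_⟩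
          push_cast
          ring
        rw [per, h7, h.left (y - m) (by linarith), zero_add]
      · have h7 : Int.fract y = y - m := by
          rw [Int.fract_eq_iff]
          refine ⟨by linarith, by linarith [hy.2], m, ?_⟩
          ring
        rw [per, h7, h.right (y - m + 1) (by linarith), add_zero]
    have h5 : HasDerivAt (fun y => φ (y - m) + φ (y - m + 1))
        (deriv φ (x - m) + deriv φ (x - m + 1)) x := by
      have a1 : HasDerivAt (fun y : ℝ => y - (m : ℝ)) 1 x := (hasDerivAt_id x).sub_const _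
      have a2 : HasDerivAt (fun y : ℝ => y - (m : ℝ) + 1) 1 x := a1.add_const _
      have b1 := (hd (x - m)).comp x a1
      have b2 := (hd (x - m + 1)).comp x a2
      rw [mul_one] at b1 b2
      exact b1.add b2
    have h6 : per (deriv φ) x = deriv φ (x - m) + deriv φ (x - m + 1) := by
      have h7 : Int.fract x = 0 := by
        rw [← h3]
        simp
      rw [per, h7, ← h3]
      have h8 := h.deriv.right (0 + 1) (by norm_num)
      rw [sub_self, h8, add_zero]
    rw [h6]
    exact h5.congr_of_eventuallyEq h4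
  · have h4 : per φ =ᶠ[nhds x] fun y => φ (y - m) := by
      filter_upwards [Ioo_mem_nhds h3 h2] with y hy
      have h7 : Int.fract y = y - m := by
        rw [Int.fract_eq_iff]
        refine ⟨by linarith [hy.1], by linarith [hy.2], m, ?_⟩
        ring
      rw [per, h7]
    have h5 : HasDerivAt (fun y => φ (y - m)) (deriv φ (x - m)) x := by
      have a1 : HasDerivAt (fun y : ℝ => y - (m : ℝ)) 1 x := (hasDerivAt_id x).sub_const _
      have b1 := (hd (x - m)).comp x a1
      rw [mul_one] at b1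
      exact b1
    have h6 : per (deriv φ) x = deriv φ (x - m) := by
      rw [per]
      rfl
    rw [h6]
    exact h5.congr_of_eventuallyEq h4

theorem iteratedDeriv_per {φ : ℝ → ℝ} (h : Flat φ) (k : ℕ) :
    iteratedDeriv k (per φ) = per (iteratedDeriv k φ) := by
  induction k with
  | zero => simp
  | succ k ih =>
    rw [iteratedDeriv_succ, ih, iteratedDeriv_succ]
    funext x
    exact (per_hasDerivAt (h.iteratedDeriv k) x).deriv

theorem per_contDiff {φ : ℝ → ℝ} (h : Flat φ) : ContDiff ℝ ∞ (per φ) := by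
  refine contDiff_of_differentiable_iteratedDeriv fun m _ => ?_
  rw [iteratedDeriv_per h]
  exact fun x => (per_hasDerivAt (h.iteratedDeriv m) x).differentiableAt

/-- The code of the fractional part. -/
def fractCode (r : RatCode) : RatCode := ((r.1 + r.2.1 * r.2.2) % (r.2.2 + 1), 0, r.2.2)

theorem ratVal_fractCode (r : RatCode) : ratVal (fractCode r) = Int.fract (ratVal r) := by
  obtain ⟨a, b, d⟩ := r
  symm
  simp only [ratVal, fractCode, Nat.cast_zero, sub_zero]
  have hd : (0 : ℝ) < (d : ℝ) + 1 := by positivity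
  rw [Int.fract_eq_iff]
  refine ⟨by positivity, ?_, (((a + b * d) / (d + 1) : ℕ) : ℤ) - (b : ℤ), ?_⟩
  · rw [div_lt_one hd]
    have : (a + b * d) % (d + 1) < d + 1 := Nat.mod_lt _ (Nat.succ_pos d)
    exact_mod_cast this
  · have h1 : (d + 1) * ((a + b * d) / (d + 1)) + (a + b * d) % (d + 1) = a + b * d :=
      Nat.div_add_mod _ _
    have h2 : ((d : ℝ) + 1) * (((a + b * d) / (d + 1) : ℕ) : ℝ) +
        (((a + b * d) % (d + 1) : ℕ) : ℝ) = a + b * d := by exact_mod_cast h1
    rw [← sub_div, div_eq_iff hd.ne', Int.cast_sub, Int.cast_natCast, Int.cast_natCast]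
    linarith

theorem primrec_fractCode : Primrec fractCode := by
  have h1 : Primrec fun r : RatCode => (r.1 + r.2.1 * r.2.2) % (r.2.2 + 1) :=
    Primrec.nat_mod.comp (Primrec.nat_add.comp primrec_fst'
      (Primrec.nat_mul.comp primrec_mid primrec_den)) (Primrec.succ.comp primrec_den)
  exact h1.pair ((Primrec.const 0).pair primrec_den)

end Vale.Agent.P113
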